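import Vale.Agent.P147.Dir.Defs

/-!
P147: elementary facts on regeneration blocks and their independence.
-/

open MeasureTheory ProbabilityTheory Filter
open scoped ENNReal Topology

noncomputable section

namespace Vale.Agent.P147.Dir

variable {d : ℕ} {l : Fin d → ℝ}

lemma lht_zero : lht l (0 : Pos d) = 0 := by simp [lht]

lemma lht_add (x y : Pos d) : lht l (x + y) = lht l x + lht l y := by
  simp [lht, mul_add, Finset.sum_add_distrib]

lemma lh_zero (η : ℕ → Step d) : lh l η 0 = 0 := by simp [lh, pos, lht]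

lemma lh_add (η : ℕ → Step d) (n t : ℕ) :
    lh l η (n + t) = lh l η n + lh l (shift n η) t := by rw [lh, pos_add, lht_add]; rfl

lemma lh_congr {η η' : ℕ → Step d} {n : ℕ} (h : ∀ t < n, η t = η' t) : lh l η n = lh l η' n := by
  rw [lh, lh, pos_congr h]

lemma shift_shift (a b : ℕ) (η : ℕ → Step d) : shift b (shift a η) = shift (a + b) η := by
  funext t; simp [shift, add_assoc]

lemma next_iterate (k : ℕ) (η : ℕ → Step d) : (next l)^[k] η = shift (ctime l k η) η := by
  induction k with
  | zero => funext t; simp [ctime, shift]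
  | succ k ih =>
    rw [Function.iterate_succ_apply', next, ctime, Finset.sum_range_succ, ih, shift_shift]
    rfl

lemma ctime_succ (k : ℕ) (η : ℕ → Step d) :
    ctime l (k + 1) η = ctime l k η + tau l ((next l)^[k] η) := Finset.sum_range_succ _ _

lemma tau_spec {η : ℕ → Step d} (h : ∃ t, RegT l η t) : RegT l η (tau l η) := by
  classical
  rw [tau, dif_pos h]
  exact Nat.find_spec h

lemma tau_pos {η : ℕ → Step d} (h : ∃ t, RegT l η t) : 0 < tau l η := by
  by_contra h0
  have h1 := (tau_spec h).1.1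
  rw [Nat.eq_zero_of_not_pos h0, lh_zero] at h1
  linarith

lemma lh_le_blkH {η : ℕ → Step d} (h : ∃ t, RegT l η t) {s : ℕ} (hs : s ≤ tau l η) :
    lh l η s ≤ blkH l η := by
  rcases eq_or_lt_of_le hs with rfl | hlt
  · exact le_rfl
  · exact ((tau_spec h).1.2 s hlt).le

lemma one_le_blkH {η : ℕ → Step d} (h : ∃ t, RegT l η t) : 1 ≤ blkH l η := (tau_spec h).1.1

lemma pos_ctime_succ (k : ℕ) (η : ℕ → Step d) : pos η (ctime l (k + 1) η)
    = pos η (ctime l k η) + pos ((next l)^[k] η) (tau l ((next l)^[k] η)) := by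
  rw [ctime_succ, pos_add, ← next_iterate]

lemma lh_ctime_eq (k : ℕ) (η : ℕ → Step d) :
    lh l η (ctime l k η) = ∑ i ∈ Finset.range k, blkH l ((next l)^[i] η) := by
  induction k with
  | zero => simp [ctime, lh_zero]
  | succ k ih =>
    rw [Finset.sum_range_succ, ← ih, ctime_succ, lh_add, ← next_iterate]
    rfl

lemma coord_ctime_eq (k : ℕ) (i : Fin d) (η : ℕ → Step d) :
    (pos η (ctime l k η) i : ℝ) = ∑ r ∈ Finset.range k, disp l i ((next l)^[r] η) := by
  induction k with
  | zero => simp [ctime, pos]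
  | succ k ih =>
    rw [Finset.sum_range_succ, ← ih, pos_ctime_succ, Pi.add_apply, Int.cast_add]
    rfl

lemma measurable_lh (n : ℕ) : Measurable fun η : ℕ → Step d => lh l η n :=
  (measurable_of_countable (lht l)).comp (measurable_pos n)

lemma measurableSet_escape : MeasurableSet (Escape (d := d) l) :=
  measurableSet_tendsto atTop measurable_lh

lemma measurableSet_fwd : MeasurableSet (Fwd (d := d) l) := by
  rw [Fwd, Set.ofPred_forall]
  exact (MeasurableSet.iInter fun t => measurableSet_le measurable_const (measurable_lh t)).inter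
    measurableSet_escape

section AllBlocks

variable {η : ℕ → Step d} (hb : ∀ k, ∃ t, RegT l ((next l)^[k] η) t)

include hb

lemma ctime_strictMono : StrictMono fun k => ctime l k η :=
  strictMono_nat_of_lt_succ fun k => by
    rw [ctime_succ]; exact Nat.lt_add_of_pos_right (tau_pos (hb k))

lemma le_lh_ctime (k : ℕ) : (k : ℝ) ≤ lh l η (ctime l k η) := by
  rw [lh_ctime_eq]
  refine le_trans (le_of_eq (by simp)) (Finset.card_nsmul_le_sum _ _ 1 fun i _ => one_le_blkH (hb i))

lemma lh_lt_ctime (k : ℕ) {s : ℕ} (hs : s < ctime l k η) : lh l η s < lh l η (ctime l k η) := by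
  induction k with
  | zero => simp [ctime] at hs
  | succ k ih =>
    have h1 := (tau_spec (hb k)).1
    rw [ctime_succ] at hs ⊢
    rw [lh_add, ← next_iterate]
    rcases lt_or_ge s (ctime l k η) with h | h
    · linarith [ih h, h1.1]
    · obtain ⟨u, rfl⟩ := Nat.exists_eq_add_of_le h
      rw [lh_add, ← next_iterate]
      linarith [h1.2 u (by omega)]

lemma exists_block (t : ℕ) : ∃ k, ctime l k η ≤ t ∧ t < ctime l (k + 1) η := by
  have hm := ctime_strictMono hb
  have hex : ∃ k, t < ctime l k η := ⟨t + 1, lt_of_lt_of_le (Nat.lt_succ_self t) hm.le_apply⟩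
  obtain ⟨k, hk⟩ : ∃ k, Nat.find hex = k + 1 := by
    refine ⟨Nat.find hex - 1, ?_⟩
    have : Nat.find hex ≠ 0 := fun h0 => by
      have := Nat.find_spec hex
      rw [h0] at this
      simp [ctime] at this
    omega
  exact ⟨k, not_lt.mp (Nat.find_min hex (by omega)), hk ▸ Nat.find_spec hex⟩

end AllBlocks

lemma natAbs_le_sweep (i : Fin d) {η : ℕ → Step d} {s : ℕ} (hs : s ≤ tau l η) :
    |(pos η s i : ℝ)| ≤ (sweep l i η : ℝ) := by
  rw [← Int.cast_abs, ← Nat.cast_natAbs]
  exact_mod_cast Finset.le_sup (f := fun s => (pos η s i).natAbs) (Finset.mem_range.mpr (by omega))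

/-- A function of the first block. -/
def BlockFun (l : Fin d → ℝ) {β : Type*} (f : (ℕ → Step d) → β) : Prop :=
  ∀ η η', η ∈ Fwd l → η' ∈ Fwd l → (∃ t, RegT l η t) → (∃ t, RegT l η' t) →
    tau l η = tau l η' → (∀ t < tau l η, η t = η' t) → f η = f η'

lemma BlockFun.blockDet {β : Type*} {f : (ℕ → Step d) → β} (hf : BlockFun l f) (A : Set β) :
    BlockDet l (f ⁻¹' A) := fun η η' h1 h2 h3 h4 h5 h6 h7 => by
  show f η' ∈ A
  rw [← hf η η' h1 h2 h3 h4 h5 h6]
  exact h7

lemma blockFun_blkH : BlockFun (d := d) l (blkH l) := fun η η' _ _ _ _ h5 h6 => by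
  rw [blkH, blkH, ← h5]; exact lh_congr h6

lemma blockFun_disp (i : Fin d) : BlockFun l (disp l i) := fun η η' _ _ _ _ h5 h6 => by
  rw [disp, disp, ← h5, pos_congr h6]

lemma blockFun_sweep (i : Fin d) : BlockFun l (sweep l i) := fun η η' _ _ _ _ h5 h6 => by
  rw [sweep, sweep, ← h5]
  refine Finset.sup_congr rfl fun s hs => ?_
  rw [pos_congr fun t ht => h6 t (by simp only [Finset.mem_range] at hs; omega)]

lemma BlockFun.comp {β γ : Type*} {f : (ℕ → Step d) → β} (hf : BlockFun l f) (g : β → γ) :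
    BlockFun l (fun η => g (f η)) := fun η η' h1 h2 h3 h4 h5 h6 =>
  congrArg g (hf η η' h1 h2 h3 h4 h5 h6)

lemma BlockFun.prod {β γ : Type*} {f : (ℕ → Step d) → β} {g : (ℕ → Step d) → γ}
    (hf : BlockFun l f) (hg : BlockFun l g) : BlockFun l (fun η => (f η, g η)) :=
  fun η η' h1 h2 h3 h4 h5 h6 =>
    Prod.ext (hf η η' h1 h2 h3 h4 h5 h6) (hg η η' h1 h2 h3 h4 h5 h6)

lemma measurable_at_tau {β : Type*} [MeasurableSpace β] (ht : Measurable (tau (d := d) l))
    {F : ℕ → (ℕ → Step d) → β} (hF : ∀ n, Measurable (F n)) :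
    Measurable fun η => F (tau l η) η :=
  (measurable_from_prod_countable_left (f := fun r : (ℕ → Step d) × ℕ => F r.2 r.1) hF).comp
    (measurable_id.prodMk ht)

lemma measurable_blkH (ht : Measurable (tau (d := d) l)) : Measurable (blkH (d := d) l) :=
  measurable_at_tau ht (F := fun n η => lh l η n) fun n =>
    (measurable_of_countable (lht l)).comp (measurable_pos n)

lemma measurable_disp (ht : Measurable (tau (d := d) l)) (i : Fin d) :
    Measurable (disp l i) :=
  measurable_at_tau ht (F := fun n η => (pos η n i : ℝ)) fun n =>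
    (measurable_of_countable fun x : Pos d => (x i : ℝ)).comp (measurable_pos n)

lemma measurable_sweep (ht : Measurable (tau (d := d) l)) (i : Fin d) :
    Measurable (sweep l i) := by
  refine measurable_at_tau ht
    (F := fun n η => (Finset.range (n + 1)).sup fun s => (pos η s i).natAbs) fun n => ?_
  induction n with
  | zero => simp [pos]
  | succ n ih =>
    have h1 : Measurable fun η : ℕ → Step d => (pos η (n + 1) i).natAbs :=
      (measurable_of_countable fun x : Pos d => (x i).natAbs).comp (measurable_pos _)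
    simpa [Finset.range_add_one, Finset.sup_insert] using h1.max ih

variable [NeZero d] {μ : Measure (Step d → ℝ)}

/-- Functions of two different blocks are independent. -/
lemma Regen.indepFun (hR : Regen μ l) {β γ : Type*} [MeasurableSpace β] [MeasurableSpace γ]
    {f : (ℕ → Step d) → β} {g : (ℕ → Step d) → γ} (hf : Measurable f) (hg : Measurable g)
    (hfb : BlockFun l f) {i j : ℕ} (hij : i < j) :
    IndepFun (fun η => f ((next l)^[i] η)) (fun η => g ((next l)^[j] η)) (fwdLaw μ l) := by
  have hp := hR.preserving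
  rw [indepFun_iff_measure_inter_preimage_eq_mul]
  intro A B hA hB
  obtain ⟨m, rfl⟩ := Nat.exists_eq_add_of_lt hij
  have hm : MeasurableSet (((next l)^[m]) ⁻¹' (g ⁻¹' B)) := (hp.iterate m).measurable (hg hB)
  have key : (fun η => f ((next l)^[i] η)) ⁻¹' A ∩ (fun η => g ((next l)^[i + m + 1] η)) ⁻¹' B
      = ((next l)^[i]) ⁻¹' (f ⁻¹' A ∩ next l ⁻¹' (((next l)^[m]) ⁻¹' (g ⁻¹' B))) := by
    ext η
    simp only [Set.mem_inter_iff, Set.mem_preimage]
    rw [show i + m + 1 = (m + 1) + i by omega, Function.iterate_add_apply,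
      Function.iterate_succ_apply]
  have e1 : (fun η => f ((next l)^[i] η)) ⁻¹' A = ((next l)^[i]) ⁻¹' (f ⁻¹' A) := rfl
  have e2 : (fun η => g ((next l)^[i + m + 1] η)) ⁻¹' B
      = ((next l)^[i + m + 1]) ⁻¹' (g ⁻¹' B) := rfl
  rw [key, (hp.iterate i).measure_preimage
      ((hf hA).inter (hp.measurable hm)).nullMeasurableSet,
    hR.product _ _ (hf hA) hm (hfb.blockDet A), e1, e2,
    (hp.iterate i).measure_preimage (hf hA).nullMeasurableSet,
    (hp.iterate (i + m + 1)).measure_preimage (hg hB).nullMeasurableSet,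
    (hp.iterate m).measure_preimage (hg hB).nullMeasurableSet]

lemma Regen.identDistrib (hR : Regen μ l) {β : Type*} [MeasurableSpace β]
    {f : (ℕ → Step d) → β} (hf : Measurable f) (i : ℕ) :
    IdentDistrib (fun η => f ((next l)^[i] η)) f (fwdLaw μ l) (fwdLaw μ l) := by
  refine ⟨(hf.comp (hR.preserving.iterate i).measurable).aemeasurable, hf.aemeasurable, ?_⟩
  rw [show (fun η => f ((next l)^[i] η)) = f ∘ ((next l)^[i]) from rfl,
    ← Measure.map_map hf (hR.preserving.iterate i).measurable, (hR.preserving.iterate i).map_eq]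

lemma Regen.lintegral_iterate (hR : Regen μ l) {f : (ℕ → Step d) → ℝ≥0∞} (hf : Measurable f)
    (i : ℕ) : ∫⁻ η, f ((next l)^[i] η) ∂fwdLaw μ l = ∫⁻ η, f η ∂fwdLaw μ l :=
  (hR.preserving.iterate i).lintegral_comp hf

lemma Regen.lintegral_mul (hR : Regen μ l) {f g : (ℕ → Step d) → ℝ≥0∞} (hf : Measurable f)
    (hg : Measurable g) (hfb : BlockFun l f) {i j : ℕ} (hij : i < j) :
    ∫⁻ η, f ((next l)^[i] η) * g ((next l)^[j] η) ∂fwdLaw μ l
      = (∫⁻ η, f η ∂fwdLaw μ l) * ∫⁻ η, g η ∂fwdLaw μ l := by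
  rw [← hR.lintegral_iterate hf i, ← hR.lintegral_iterate hg j]
  exact lintegral_mul_eq_lintegral_mul_lintegral_of_indepFun
    (hf.comp (hR.preserving.iterate i).measurable) (hg.comp (hR.preserving.iterate j).measurable)
    (hR.indepFun hf hg hfb hij)

end Vale.Agent.P147.Dir
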