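import Vale.Agent.P147.Dir.Opposite

/-!
P147: consequences of the asymptotic direction for the set of directions with two escapes.
-/

open MeasureTheory Filter
open scoped ENNReal Topology

noncomputable section

namespace Vale.Agent.P147.Dir

variable {d : ℕ} [NeZero d] {μ : Measure (Step d → ℝ)}

omit [NeZero d] in
lemma escape_zero : Escape (0 : Fin d → ℝ) = ∅ := by
  refine Set.eq_empty_of_forall_notMem fun η h => ?_
  obtain ⟨n, hn⟩ := (h.eventually_gt_atTop 0).exists
  simp [lh, lht] at hn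

lemma ne_zero_of_escape {l : Fin d → ℝ} (h : 0 < nu μ (Escape l)) : l ≠ 0 := by
  rintro rfl
  rw [escape_zero, measure_empty] at h
  exact lt_irrefl _ h

/-- The almost sure inclusion given by a positive slope. -/
lemma escape_le {l v α : Fin d → ℝ} (hv : HasDir μ l v) (ha : 0 < ∑ i, α i * v i) :
    nu μ (Escape l) ≤ nu μ (Escape α) := measure_mono_ae <| by
  filter_upwards [hv.2] with η h he using escape_of_rate he (h he) ha

/-- Directions of comparable escapes are proportional. -/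
lemma dir_eq {l v α u : Fin d → ℝ} (hl : 0 < nu μ (Escape l)) (hv : HasDir μ l v)
    (hu : HasDir μ α u) (ha : 0 < ∑ i, α i * v i) (i : Fin d) :
    u i * (∑ j, α j * v j) = v i := by
  obtain ⟨η, hη, hvη, huη⟩ : ∃ η, η ∈ Escape l ∧ (η ∈ Escape l → ∀ i,
      Tendsto (fun n => (pos η n i : ℝ) / lh l η n) atTop (𝓝 (v i))) ∧
      (η ∈ Escape α → ∀ i, Tendsto (fun n => (pos η n i : ℝ) / lh α η n) atTop (𝓝 (u i))) := by
    by_contra hc
    refine hl.ne' (measure_mono_null (fun η hη => ?_) (ae_iff.mp (hv.2.and hu.2)))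
    exact fun h => hc ⟨η, hη, h⟩
  have hα := escape_of_rate hη (hvη hη) ha
  refine tendsto_nhds_unique (f := fun n => (pos η n i : ℝ) / lh l η n) ?_ (hvη hη i)
  have h1 : Tendsto (fun n => lh α η n / lh l η n) atTop (𝓝 (∑ i, α i * v i)) := by
    refine (tendsto_finsetSum _ fun i _ => (hvη hη i).const_mul (α i)).congr fun n => ?_
    simp only [lh, lht, Finset.sum_div, mul_div_assoc]
  refine ((huη hα i).mul h1).congr' ?_
  filter_upwards [hα.eventually_gt_atTop 0] with n hn
  field_simp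

lemma hasDir_flip {l v : Fin d → ℝ} (h : HasDir μ (-l) (-v)) :
    ∀ᵐ η ∂nu μ, η ∈ Escape (-l) →
      ∀ i, Tendsto (fun n => (pos η n i : ℝ) / lh l η n) atTop (𝓝 (v i)) := by
  filter_upwards [h.2] with η hη he i
  simpa [lh_neg, div_neg] using (hη he i).neg

/-- Where two escapes occur, the line of the asymptotic direction decides for every direction. -/
theorem two_rays (hμ : Elliptic μ) (hdir : ∀ l, DirectionStmt μ l) {l : Fin d → ℝ}
    (hl : 0 < nu μ (Escape l)) (hl' : 0 < nu μ (Escape (-l))) :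
    ∃ v, HasDir μ l v ∧ HasDir μ (-l) (-v) ∧
      ∀ l', Fails μ l' ↔ ∑ i, l' i * v i ≠ 0 := by
  obtain ⟨v, hv⟩ := hdir l hμ (ne_zero_of_escape hl) hl
  obtain ⟨v', hv'⟩ := hdir (-l) hμ (ne_zero_of_escape hl') hl'
  obtain rfl := opposite hμ l v v' hl hl' hv hv'
  refine ⟨v, hv, hv', fun l' => ⟨fun hf h0 => ?_, fun h => ?_⟩⟩
  · -- two escapes off the line of `v`: compare both with a common direction
    obtain ⟨w, hw⟩ := hdir l' hμ (ne_zero_of_escape hf.1) hf.1
    set t := 1 + |∑ i, l i * w i|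
    have h1 : ∑ i, (l + t • l') i * v i = 1 := by
      simp [add_mul, Finset.sum_add_distrib, mul_assoc, ← Finset.mul_sum, hv.1, h0]
    have h2 : 0 < ∑ i, (l + t • l') i * w i := by
      simp only [Pi.add_apply, Pi.smul_apply, smul_eq_mul, add_mul, Finset.sum_add_distrib,
        mul_assoc, ← Finset.mul_sum, hw.1]
      linarith [neg_abs_le (∑ i, l i * w i), show t = 1 + |∑ i, l i * w i| from rfl]
    have hα : 0 < nu μ (Escape (l + t • l')) :=
      hl.trans_le (escape_le hv (h1 ▸ one_pos))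
    obtain ⟨u, hu⟩ := hdir _ hμ (ne_zero_of_escape hα) hα
    have e1 := dir_eq hl hv hu (h1 ▸ one_pos)
    have e2 := dir_eq hf.1 hw hu h2
    simp only [h1, mul_one] at e1
    set s := ∑ i, (l + t • l') i * w i
    have h3 : ∑ i, l' i * w i = s * ∑ i, l' i * v i := by
      rw [Finset.mul_sum]
      exact Finset.sum_congr rfl fun i _ => by rw [← e2 i, e1 i]; ring
    rw [hw.1, h0, mul_zero] at h3
    exact one_ne_zero h3
  · rcases lt_or_gt_of_ne h with h | h
    · exact ⟨hl'.trans_le (escape_le hv' (by simpa using h)),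
        hl.trans_le (escape_le hv (by simpa using h))⟩
    · exact ⟨hl.trans_le (escape_le hv h), hl'.trans_le (escape_le hv' (by simpa using h))⟩

/-- The coordinate directions decide. -/
theorem coordinates (hμ : Elliptic μ) (hdir : ∀ l, DirectionStmt μ l)
    (h : ∀ i : Fin d, ¬ Fails μ (Pi.single i 1)) (l : Fin d → ℝ) : ¬ Fails μ l := fun hf => by
  obtain ⟨v, hv, -, hiff⟩ := two_rays hμ hdir hf.1 hf.2
  obtain ⟨i, hi⟩ : ∃ i, v i ≠ 0 := by
    by_contra hc
    push Not at hc
    simpa [hc] using hv.1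
  exact h i ((hiff _).2 (by simpa [Pi.single_apply, ite_mul] using hi))

omit [NeZero d] in
lemma vec_injective : Function.Injective (vec (d := d)) := fun e e' h => by
  have h1 := ht_vec_self e
  rw [h] at h1
  by_cases hc : e'.1 = e.1
  · by_cases hb : e'.2 = e.2
    · exact (Prod.ext hc hb).symm
    · rw [show e' = opp e from Prod.ext hc (by cases h' : e'.2 <;> cases h'' : e.2 <;> simp_all [opp]),
        ht_vec_opp] at h1
      omega
  · rw [ht_vec_lat hc] at h1
    omega

/-- The law of the first steps of the walk. -/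
theorem walk_law (hμ : Elliptic μ) (n : ℕ) (ξ : ℕ → Step d) :
    annealed μ {q | ∀ t ≤ n, walkPos q t = pos ξ t} =
      ∫⁻ ω, ∏ t ∈ Finset.range n, ENNReal.ofReal (ω (pos ξ t) (ξ t))
        ∂(Measure.infinitePi fun _ : Pos d => μ) := by
  have hset : {q | ∀ t ≤ n, walkPos q t = pos ξ t} = stepsOf ⁻¹' cyl n ξ := by
    ext q
    simp only [Set.mem_preimage, cyl, Set.mem_ofPred_eq, ← pos_stepsOf]
    refine ⟨fun h t ht => vec_injective ?_, fun h t ht => pos_congr fun s hs => h s (by omega)⟩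
    have h1 := h (t + 1) (by omega)
    rw [pos, pos, h t ht.le] at h1
    exact add_left_cancel h1
  rw [hset, ← Measure.map_apply measurable_stepsOf (measurableSet_cyl n ξ)]
  exact w_eq_lintegral hμ n ξ

lemma lh_stepsOf (l : Fin d → ℝ) (q : Env d × (ℕ → ℝ)) :
    lh l (stepsOf q) = fun n => ∑ i, l i * (walkPos q n i : ℝ) :=
  funext fun n => by rw [lh, lht, pos_stepsOf]

lemma nu_escape (l : Fin d → ℝ) : nu μ (Escape l) =
    annealed μ {q | Tendsto (fun n => ∑ i, l i * (walkPos q n i : ℝ)) atTop atTop} := by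
  rw [nu, Measure.map_apply measurable_stepsOf measurableSet_escape]
  congr 1
  ext q
  simp [Escape, lh_stepsOf]

lemma mem_escape_neg {l : Fin d → ℝ} {q : Env d × (ℕ → ℝ)} : stepsOf q ∈ Escape (-l) ↔
    Tendsto (fun n => ∑ i, l i * (walkPos q n i : ℝ)) atTop atBot := by
  simp [Escape, funext (lh_neg l (stepsOf q)), lh_stepsOf, tendsto_neg_atTop_iff]

lemma nu_escape_neg (l : Fin d → ℝ) : nu μ (Escape (-l)) =
    annealed μ {q | Tendsto (fun n => ∑ i, l i * (walkPos q n i : ℝ)) atTop atBot} := by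
  rw [nu, Measure.map_apply measurable_stepsOf measurableSet_escape]
  exact congrArg _ (Set.ext fun q => mem_escape_neg)

lemma fails_iff (l : Fin d → ℝ) : Fails μ l ↔
    (0 < annealed μ {q | Tendsto (fun n => ∑ i, l i * (walkPos q n i : ℝ)) atTop atTop} ∧
      0 < annealed μ {q | Tendsto (fun n => ∑ i, l i * (walkPos q n i : ℝ)) atTop atBot}) := by
  rw [Fails, nu_escape, nu_escape_neg]

lemma fails_single (i : Fin d) : Fails μ (Pi.single i 1) ↔
    (0 < annealed μ {q | Tendsto (fun n => (walkPos q n i : ℝ)) atTop atTop} ∧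
      0 < annealed μ {q | Tendsto (fun n => (walkPos q n i : ℝ)) atTop atBot}) := by
  rw [fails_iff]
  simp [Pi.single_apply, ite_mul]

/-- Part one, for the walk. -/
theorem direction_walk (hμ : Elliptic μ) (hdir : ∀ l, DirectionStmt μ l) (l : Fin d → ℝ)
    (hl : l ≠ 0)
    (h : 0 < annealed μ {q | Tendsto (fun n => ∑ i, l i * (walkPos q n i : ℝ)) atTop atTop}) :
    ∃ v : Fin d → ℝ, ∑ i, l i * v i = 1 ∧ ∀ᵐ q ∂annealed μ,
      Tendsto (fun n => ∑ i, l i * (walkPos q n i : ℝ)) atTop atTop → ∀ i,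
        Tendsto (fun n => (walkPos q n i : ℝ) / ∑ j, l j * (walkPos q n j : ℝ)) atTop (𝓝 (v i)) := by
  rw [← nu_escape] at h
  obtain ⟨v, hv1, hv⟩ := hdir l hμ hl h
  refine ⟨v, hv1, ?_⟩
  filter_upwards [ae_of_ae_map measurable_stepsOf.aemeasurable hv] with q hq he
  simpa [lh_stepsOf, pos_stepsOf] using hq (by simpa [Escape, lh_stepsOf] using he)

/-- Part two, for the walk. -/
theorem two_rays_walk (hμ : Elliptic μ) (hdir : ∀ l, DirectionStmt μ l) (l : Fin d → ℝ)
    (h1 : 0 < annealed μ {q | Tendsto (fun n => ∑ i, l i * (walkPos q n i : ℝ)) atTop atTop})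
    (h2 : 0 < annealed μ {q | Tendsto (fun n => ∑ i, l i * (walkPos q n i : ℝ)) atTop atBot}) :
    ∃ v : Fin d → ℝ, ∑ i, l i * v i = 1 ∧
      (∀ᵐ q ∂annealed μ,
        Tendsto (fun n => ∑ i, l i * (walkPos q n i : ℝ)) atTop atTop ∨
        Tendsto (fun n => ∑ i, l i * (walkPos q n i : ℝ)) atTop atBot → ∀ i,
        Tendsto (fun n => (walkPos q n i : ℝ) / ∑ j, l j * (walkPos q n j : ℝ)) atTop (𝓝 (v i))) ∧
      ∀ l' : Fin d → ℝ,
        (0 < annealed μ {q | Tendsto (fun n => ∑ i, l' i * (walkPos q n i : ℝ)) atTop atTop} ∧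
          0 < annealed μ {q | Tendsto (fun n => ∑ i, l' i * (walkPos q n i : ℝ)) atTop atBot}) ↔
        ∑ i, l' i * v i ≠ 0 := by
  rw [← nu_escape] at h1
  rw [← nu_escape_neg] at h2
  obtain ⟨v, hv, hv', hiff⟩ := two_rays hμ hdir h1 h2
  refine ⟨v, hv.1, ?_, fun l' => (fails_iff l').symm.trans (hiff l')⟩
  filter_upwards [ae_of_ae_map measurable_stepsOf.aemeasurable hv.2,
    ae_of_ae_map measurable_stepsOf.aemeasurable (hasDir_flip hv')] with q hq hq' he
  rcases he with he | he
  · simpa [lh_stepsOf, pos_stepsOf] using hq (by simpa [Escape, lh_stepsOf] using he)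
  · simpa [lh_stepsOf, pos_stepsOf] using hq' (mem_escape_neg.2 he)

end Vale.Agent.P147.Dir
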