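import Vale.Agent.P147.Dir.Walk
import Vale.Agent.P147.Dir.Main

/-!
P147: the named events of the walk as preimages of the path events.
-/

open MeasureTheory Filter
open scoped Topology

noncomputable section

namespace Vale.Agent.P147.Dir

variable {d : ℕ} [NeZero d] {μ : Measure (Step d → ℝ)}

lemma proj_eq (l : Fin d → ℝ) (q : Env d × (ℕ → ℝ)) : proj l q = lh l (stepsOf q) :=
  (lh_stepsOf l q).symm

lemma ae_eq_preimage (l : Fin d → ℝ) : AE l = stepsOf ⁻¹' Escape l := by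
  ext q; simp [AE, Escape, proj_eq]

lemma annealed_ae (l : Fin d → ℝ) : annealed μ (AE l) = nu μ (Escape l) := by
  rw [ae_eq_preimage, nu, Measure.map_apply measurable_stepsOf measurableSet_escape]

lemma coexist_iff (l : Fin d → ℝ) : Coexist μ l ↔ Fails μ l := by
  rw [Coexist, Fails, annealed_ae, annealed_ae]

lemma ray_iff (l v : Fin d → ℝ) (q : Env d × (ℕ → ℝ)) : Ray l v q ↔
    ∀ i, Tendsto (fun n => (pos (stepsOf q) n i : ℝ) / lh l (stepsOf q) n) atTop (𝓝 (v i)) := by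
  simp [Ray, proj_eq, pos_stepsOf]

theorem direction_named (hμ : Elliptic μ) (hdir : ∀ l, DirectionStmt μ l) (l : Fin d → ℝ)
    (hl : l ≠ 0) (h : 0 < annealed μ (AE l)) :
    ∃ v : Fin d → ℝ, ∑ i, l i * v i = 1 ∧ ∀ᵐ q ∂annealed μ, q ∈ AE l → Ray l v q := by
  rw [annealed_ae] at h
  obtain ⟨v, hv1, hv⟩ := hdir l hμ hl h
  refine ⟨v, hv1, ?_⟩
  filter_upwards [ae_of_ae_map measurable_stepsOf.aemeasurable hv] with q hq he
  rw [ae_eq_preimage] at he
  exact (ray_iff l v q).2 (hq he)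

theorem two_rays_named (hμ : Elliptic μ) (hdir : ∀ l, DirectionStmt μ l) (l : Fin d → ℝ)
    (h : Coexist μ l) : ∃ v : Fin d → ℝ, ∑ i, l i * v i = 1 ∧
      (∀ᵐ q ∂annealed μ, q ∈ AE l ∪ AE (-l) → Ray l v q) ∧
      ∀ l' : Fin d → ℝ, Coexist μ l' ↔ ∑ i, l' i * v i ≠ 0 := by
  rw [coexist_iff] at h
  obtain ⟨v, hv, hv', hiff⟩ := two_rays hμ hdir h.1 h.2
  refine ⟨v, hv.1, ?_, fun l' => (coexist_iff l').trans (hiff l')⟩
  filter_upwards [ae_of_ae_map measurable_stepsOf.aemeasurable hv.2,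
    ae_of_ae_map measurable_stepsOf.aemeasurable (hasDir_flip hv')] with q hq hq' he
  simp only [ae_eq_preimage, Set.mem_union, Set.mem_preimage] at he
  rcases he with he | he
  · exact (ray_iff l v q).2 (hq he)
  · exact (ray_iff l v q).2 (hq' he)

end Vale.Agent.P147.Dir
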