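import Vale.Agent.P147.Factor
import Vale.Agent.P147.Height

/-!
P147: regeneration in a real direction, interfaces for the asymptotic direction theorem.
-/

open MeasureTheory Filter
open scoped ENNReal Topology

noncomputable section

namespace Vale.Agent.P147.Dir

variable {d : ℕ}

/-- The height of a site in the real direction `l`. -/
def lht (l : Fin d → ℝ) (x : Pos d) : ℝ := ∑ i, l i * (x i : ℝ)

/-- The height of the path after `n` steps. -/
def lh (l : Fin d → ℝ) (η : ℕ → Step d) (n : ℕ) : ℝ := lht l (pos η n)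

/-- The direction is normalised: `e₀` climbs by one, no step by more. -/
def Norm (l : Fin d → ℝ) (e₀ : Step d) : Prop :=
  lht l (vec e₀) = 1 ∧ ∀ e : Step d, |lht l (vec e)| ≤ 1

/-- Escape in the direction `l`. -/
def Escape (l : Fin d → ℝ) : Set (ℕ → Step d) := {η | Tendsto (lh l η) atTop atTop}

/-- Escape without going below the starting height. -/
def Fwd (l : Fin d → ℝ) : Set (ℕ → Step d) := {η | ∀ t, 0 ≤ lh l η t} ∩ Escape l

/-- Time `t` looks like a regeneration from the past. -/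
def Cand (l : Fin d → ℝ) (η : ℕ → Step d) (t : ℕ) : Prop :=
  1 ≤ lh l η t ∧ ∀ s < t, lh l η s < lh l η t

/-- Time `t` is a regeneration. -/
def RegT (l : Fin d → ℝ) (η : ℕ → Step d) (t : ℕ) : Prop :=
  Cand l η t ∧ shift t η ∈ Fwd l

open Classical in
/-- The first regeneration time, zero if there is none. -/
def tau (l : Fin d → ℝ) (η : ℕ → Step d) : ℕ :=
  if h : ∃ t, RegT l η t then Nat.find h else 0

/-- The path after its first regeneration. -/
def next (l : Fin d → ℝ) (η : ℕ → Step d) : ℕ → Step d := shift (tau l η) η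

/-- The height of the first block. -/
def blkH (l : Fin d → ℝ) (η : ℕ → Step d) : ℝ := lh l η (tau l η)

/-- The displacement of the first block along coordinate `i`. -/
def disp (l : Fin d → ℝ) (i : Fin d) (η : ℕ → Step d) : ℝ := (pos η (tau l η) i : ℝ)

/-- The largest excursion along coordinate `i` within the first block. -/
def sweep (l : Fin d → ℝ) (i : Fin d) (η : ℕ → Step d) : ℕ :=
  (Finset.range (tau l η + 1)).sup fun s => (pos η s i).natAbs

/-- The time of the `k`-th regeneration. -/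
def ctime (l : Fin d → ℝ) (k : ℕ) (η : ℕ → Step d) : ℕ :=
  ∑ i ∈ Finset.range k, tau l ((next l)^[i] η)

/-- A set only depending on the first block. -/
def BlockDet (l : Fin d → ℝ) (G : Set (ℕ → Step d)) : Prop :=
  ∀ η η', η ∈ Fwd l → η' ∈ Fwd l → (∃ t, RegT l η t) → (∃ t, RegT l η' t) →
    tau l η = tau l η' → (∀ t < tau l η, η t = η' t) → η ∈ G → η' ∈ G

variable [NeZero d]

/-- The law of the walk conditioned to escape without going back. -/
def fwdLaw (μ : Measure (Step d → ℝ)) (l : Fin d → ℝ) : Measure (ℕ → Step d) :=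
  (nu μ (Fwd l))⁻¹ • (nu μ).restrict (Fwd l)

/-- Module Regen: the blocks are stationary, the first one is independent of the rest, and the
mean height of a block is finite. -/
structure Regen (μ : Measure (Step d → ℝ)) (l : Fin d → ℝ) : Prop where
  pos : 0 < nu μ (Fwd l)
  prob : IsProbabilityMeasure (fwdLaw μ l)
  exists_regT : ∀ᵐ η ∂fwdLaw μ l, η ∈ Fwd l ∧ ∀ k, ∃ t, RegT l ((next l)^[k] η) t
  measurable_tau : Measurable (tau (d := d) l)
  preserving : MeasurePreserving (next l) (fwdLaw μ l) (fwdLaw μ l)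
  product : ∀ G F : Set (ℕ → Step d), MeasurableSet G → MeasurableSet F → BlockDet l G →
    fwdLaw μ l (G ∩ next l ⁻¹' F) = fwdLaw μ l G * fwdLaw μ l F
  mean : ∫⁻ η, ENNReal.ofReal (blkH l η) ∂fwdLaw μ l ≠ ∞

/-- Module Regen, statement. -/
def RegenStmt (μ : Measure (Step d → ℝ)) (l : Fin d → ℝ) (e₀ : Step d) : Prop :=
  Elliptic μ → Norm l e₀ → 0 < nu μ (Escape l) → Regen μ l

/-- A failure after `L` steps of a trial started at a fresh record of `u`. -/
structure Trial (μ : Measure (Step d → ℝ)) (u : Pos d → ℝ) (Exit : ℕ → Set (ℕ → Step d))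
    (q : ℝ≥0∞) : Prop where
  add : ∀ x y, u (x + y) = u x + u y
  det : ∀ L, DetBy L (Exit L)
  fresh : ∀ L, ∀ η ∈ Exit L, ∀ s < L, 0 ≤ u (pos η s)
  disj : Pairwise (Function.onFun Disjoint Exit)
  total : ∑' L, nu μ (Exit L) ≤ q

/-- Module Trials, statement: a geometric count `G` of failures controls the maximum of `u`. -/
def TrialStmt (d : ℕ) [NeZero d] : Prop :=
  ∀ q : ℝ≥0∞, q < 1 → ∃ C : ℝ≥0∞, C ≠ ∞ ∧ ∀ (μ : Measure (Step d → ℝ)) (u : Pos d → ℝ)
    (Exit : ℕ → Set (ℕ → Step d)), Elliptic μ → Trial μ u Exit q →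
    ∃ G : (ℕ → Step d) → ℝ≥0∞, Measurable G ∧ ∫⁻ η, G η ^ 2 ∂nu μ ≤ C ∧
      ∀ η, G η ≠ ∞ → ∀ (T : ℕ) (g : ℕ → ℝ),
        (∀ r s, r ≤ s → s ≤ T → g r ≤ g s) → (∀ e : Step d, |u (vec e)| ≤ g 0) →
        (∀ z s, z ≤ s → s ≤ T → (∀ L < s - z, shift z η ∉ Exit L) →
          u (pos η s) - u (pos η z) ≤ g s) →
        ∀ s ≤ T, u (pos η s) ≤ ((G η).toReal + 1) * (2 * g s)

/-- Module MaxIneq, statement: the maximal inequality for a measure-preserving map. -/
def MaxIneqStmt : Prop :=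
  ∀ (Ω : Type) [MeasurableSpace Ω] (P : Measure Ω) [IsProbabilityMeasure P] (T : Ω → Ω)
    (f : Ω → ℝ), MeasurePreserving T P P → Measurable f → (∀ x, 0 ≤ f x) →
    ∀ (n : ℕ) (M : ℝ), 0 < M →
      P {x | ∃ k, 1 ≤ k ∧ k ≤ n ∧ M * (k : ℝ) < ∑ i ∈ Finset.range k, f (T^[i] x)} ≤
        (∫⁻ x, ENNReal.ofReal (f x) ∂P) / ENNReal.ofReal M

/-- Module Sweep, statement: finite mean excursion within a block. -/
def SweepStmt (μ : Measure (Step d → ℝ)) (l : Fin d → ℝ) (e₀ : Step d) : Prop :=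
  Elliptic μ → Norm l e₀ → Regen μ l → ∀ i ≠ e₀.1,
    ∫⁻ η, (sweep l i η : ℝ≥0∞) ∂fwdLaw μ l ≠ ∞

/-- A deterministic asymptotic direction on the escape event. -/
def HasDir (μ : Measure (Step d → ℝ)) (l v : Fin d → ℝ) : Prop :=
  ∑ i, l i * v i = 1 ∧ ∀ᵐ η ∂nu μ, η ∈ Escape l →
    ∀ i, Tendsto (fun n => (pos η n i : ℝ) / lh l η n) atTop (𝓝 (v i))

/-- Module Direction, statement. -/
def DirectionStmt (μ : Measure (Step d → ℝ)) (l : Fin d → ℝ) : Prop :=
  Elliptic μ → l ≠ 0 → 0 < nu μ (Escape l) → ∃ v, HasDir μ l v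

/-- Module Opposite, statement: coexistence forces opposite directions. -/
def OppositeStmt (μ : Measure (Step d → ℝ)) : Prop :=
  Elliptic μ → ∀ l v v' : Fin d → ℝ, 0 < nu μ (Escape l) → 0 < nu μ (Escape (-l)) →
    HasDir μ l v → HasDir μ (-l) v' → v' = -v

/-- Both escapes along `l` are possible. -/
def Fails (μ : Measure (Step d → ℝ)) (l : Fin d → ℝ) : Prop :=
  0 < nu μ (Escape l) ∧ 0 < nu μ (Escape (-l))

end Vale.Agent.P147.Dir
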