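import Vale.Agent.P147.Dir.Blocks

/-!
P147: the asymptotic direction on the escape event, from regeneration and finite mean excursions.
-/

open MeasureTheory ProbabilityTheory Filter
open scoped ENNReal Topology

noncomputable section

namespace Vale.Agent.P147.Dir

variable {d : ℕ} {l : Fin d → ℝ}

lemma lht_vec (e : Step d) : lht l (vec e) = if e.2 then l e.1 else -l e.1 := by
  rcases e with ⟨j, b⟩
  rw [lht, Finset.sum_eq_single j]
  · cases b <;> simp [vec]
  · intro i _ hi
    simp [vec, hi]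
  · simp

lemma lht_smul (a : ℝ) (x : Pos d) : lht (a • l) x = a * lht l x := by
  simp [lht, Finset.mul_sum, mul_assoc]

lemma lh_smul (a : ℝ) (η : ℕ → Step d) (n : ℕ) : lh (a • l) η n = a * lh l η n := lht_smul a _

lemma escape_smul {a : ℝ} (ha : 0 < a) : Escape (a • l) = Escape l := by
  ext η
  simp only [Escape, Set.mem_ofPred_eq, funext (lh_smul a η)]
  exact tendsto_const_mul_atTop_of_pos ha

lemma exists_norm [NeZero d] (hl : l ≠ 0) : ∃ a > (0 : ℝ), ∃ e₀ : Step d, Norm (a • l) e₀ := by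
  obtain ⟨i, -, hi⟩ := Finset.exists_max_image Finset.univ (fun i => |l i|) Finset.univ_nonempty
  have hpos : 0 < |l i| := by
    obtain ⟨j, hj⟩ := Function.ne_iff.mp hl
    exact lt_of_lt_of_le (abs_pos.mpr hj) (hi j (Finset.mem_univ j))
  refine ⟨|l i|⁻¹, inv_pos.mpr hpos, (i, decide (0 ≤ l i)), ?_, fun e => ?_⟩
  · rw [lht_smul, lht_vec]
    by_cases h : 0 ≤ l i
    · simp [h, abs_of_nonneg h, ne_of_gt (abs_of_nonneg h ▸ hpos)]
    · simp [h, abs_of_neg (not_le.mp h), ne_of_lt (not_le.mp h)]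
  · rw [lht_smul, lht_vec, abs_mul, abs_inv, abs_abs, inv_mul_le_iff₀ hpos, mul_one]
    cases e.2 <;> simpa using hi e.1 (Finset.mem_univ _)

lemma tendsto_succ_div {S : ℕ → ℝ} {L : ℝ} (h : Tendsto (fun k => S k / k) atTop (𝓝 L)) :
    Tendsto (fun k => S (k + 1) / k) atTop (𝓝 L) := by
  have h1 := ((tendsto_add_atTop_iff_nat 1).mpr h).mul
    (tendsto_natCast_div_add_atTop (1 : ℝ) |>.inv₀ one_ne_zero)
  rw [inv_one, mul_one] at h1
  refine h1.congr' ?_
  filter_upwards [eventually_ge_atTop 1] with k hk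
  have : (k : ℝ) ≠ 0 := by exact_mod_cast (by omega : k ≠ 0)
  push_cast
  field_simp

/-- From blocks to all times. -/
lemma interpolate {η : ℕ → Step d} (hb : ∀ k, ∃ t, RegT l ((next l)^[k] η) t)
    (hf : ∀ k, (next l)^[k] η ∈ Fwd l) {i : Fin d} {h₀ a : ℝ} (h0 : 0 < h₀)
    (hH : Tendsto (fun k => lh l η (ctime l k η) / k) atTop (𝓝 h₀))
    (hD : Tendsto (fun k => (pos η (ctime l k η) i : ℝ) / k) atTop (𝓝 a))
    (hS : Tendsto (fun k => (sweep l i ((next l)^[k] η) : ℝ) / k) atTop (𝓝 0)) :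
    Tendsto (fun t => (pos η t i : ℝ) / lh l η t) atTop (𝓝 (a / h₀)) := by
  choose κ hκ1 hκ2 using exists_block hb
  have hmono := (ctime_strictMono hb).monotone
  have hκ : Tendsto κ atTop atTop := tendsto_atTop.mpr fun K =>
    eventually_atTop.mpr ⟨ctime l K η, fun t ht => by
      by_contra hc
      have h1 : ctime l (κ t + 1) η ≤ ctime l K η := hmono (by omega : κ t + 1 ≤ K)
      have := hκ2 t
      omega⟩
  have hu : ∀ t, t - ctime l (κ t) η ≤ tau l ((next l)^[κ t] η) := fun t => by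
    have := hκ2 t
    rw [ctime_succ] at this
    omega
  have hlo : ∀ t, lh l η (ctime l (κ t) η) ≤ lh l η t := fun t => by
    obtain ⟨u, hu'⟩ := Nat.exists_eq_add_of_le (hκ1 t)
    conv_rhs => rw [hu', lh_add, ← next_iterate]
    linarith [(hf (κ t)).1 u]
  have hhi : ∀ t, lh l η t ≤ lh l η (ctime l (κ t + 1) η) := fun t =>
    (lh_lt_ctime hb _ (hκ2 t)).le
  have hh : Tendsto (fun t => lh l η t / (κ t : ℝ)) atTop (𝓝 h₀) :=
    tendsto_of_tendsto_of_tendsto_of_le_of_le (hH.comp hκ) ((tendsto_succ_div hH).comp hκ)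
      (fun t => div_le_div_of_nonneg_right (hlo t) (Nat.cast_nonneg _))
      (fun t => div_le_div_of_nonneg_right (hhi t) (Nat.cast_nonneg _))
  have hr : Tendsto (fun t => ((pos η t i : ℝ) - pos η (ctime l (κ t) η) i) / κ t) atTop (𝓝 0) := by
    refine squeeze_zero_norm (fun t => ?_) (hS.comp hκ)
    rw [Real.norm_eq_abs, abs_div, Nat.abs_cast, Function.comp_apply]
    refine div_le_div_of_nonneg_right ?_ (Nat.cast_nonneg _)
    obtain ⟨u, hu'⟩ := Nat.exists_eq_add_of_le (hκ1 t)
    have h2 := hu t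
    have h3 : pos η t = pos η (ctime l (κ t) η) + pos ((next l)^[κ t] η) u := by
      rw [next_iterate, ← pos_add, ← hu']
    rw [h3, Pi.add_apply, Int.cast_add, add_sub_cancel_left]
    exact natAbs_le_sweep i (by omega)
  have hp : Tendsto (fun t => (pos η t i : ℝ) / κ t) atTop (𝓝 a) := by
    have := (hD.comp hκ).add hr
    rw [add_zero] at this
    refine this.congr fun t => ?_
    simp only [Function.comp_apply]
    ring
  refine (hp.div hh h0.ne').congr' ?_
  filter_upwards [hκ.eventually (eventually_ge_atTop 1)] with t ht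
  exact div_div_div_cancel_right₀ (by exact_mod_cast (by omega : κ t ≠ 0)) _ _

variable [NeZero d] {μ : Measure (Step d → ℝ)}

/-- The strong law for functions of one block. -/
lemma Regen.slln (hR : Regen μ l) {f : (ℕ → Step d) → ℝ} (hf : Measurable f)
    (hfb : BlockFun l f) (hi : Integrable f (fwdLaw μ l)) :
    ∀ᵐ η ∂fwdLaw μ l, Tendsto (fun k : ℕ => (∑ r ∈ Finset.range k, f ((next l)^[r] η)) / k)
      atTop (𝓝 (∫ η, f η ∂fwdLaw μ l)) := by
  have h := strong_law_ae_real (μ := fwdLaw μ l) (fun r η => f ((next l)^[r] η)) (by simpa using hi)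
    (fun i j hij => by
      rcases lt_or_gt_of_ne hij with h | h
      · exact hR.indepFun hf hf hfb h
      · exact (hR.indepFun hf hf hfb h).symm)
    (fun i => by simpa using hR.identDistrib hf i)
  simpa using h

lemma Regen.blocks (hR : Regen μ l) :
    ∀ᵐ η ∂fwdLaw μ l, ∀ k, (next l)^[k] η ∈ Fwd l ∧ ∃ t, RegT l ((next l)^[k] η) t := by
  rw [ae_all_iff]
  intro k
  filter_upwards [(hR.preserving.iterate k).quasiMeasurePreserving.ae hR.exists_regT] with η hη
  exact ⟨hη.1, by simpa using hη.2 0⟩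

lemma Regen.integrable_blkH (hR : Regen μ l) : Integrable (blkH l) (fwdLaw μ l) := by
  refine ⟨(measurable_blkH hR.measurable_tau).aestronglyMeasurable, ?_⟩
  rw [hasFiniteIntegral_iff_ofReal]
  · exact lt_top_iff_ne_top.mpr hR.mean
  · filter_upwards [hR.blocks] with η hη
    exact le_trans zero_le_one (one_le_blkH (by simpa using (hη 0).2))

lemma Regen.integrable_sweep (hR : Regen μ l) {i : Fin d}
    (hs : ∫⁻ η, (sweep l i η : ℝ≥0∞) ∂fwdLaw μ l ≠ ∞) :
    Integrable (fun η => (sweep l i η : ℝ)) (fwdLaw μ l) := by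
  refine ⟨((measurable_of_countable fun n : ℕ => (n : ℝ)).comp
    (measurable_sweep hR.measurable_tau i)).aestronglyMeasurable, ?_⟩
  rw [hasFiniteIntegral_iff_ofReal (Eventually.of_forall fun η => Nat.cast_nonneg _)]
  simpa using lt_top_iff_ne_top.mpr hs

/-- The conditioned walk has an asymptotic ratio along each coordinate with finite excursions. -/
lemma Regen.ratio (hR : Regen μ l) {i : Fin d}
    (hs : ∫⁻ η, (sweep l i η : ℝ≥0∞) ∂fwdLaw μ l ≠ ∞) :
    ∃ c : ℝ, ∀ᵐ η ∂fwdLaw μ l,
      Tendsto (fun t => (P147.pos η t i : ℝ) / lh l η t) atTop (𝓝 c) := by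
  have := hR.prob
  have hS := hR.integrable_sweep hs
  have hDm := measurable_disp hR.measurable_tau i
  have hD : Integrable (disp l i) (fwdLaw μ l) :=
    hS.mono' hDm.aestronglyMeasurable (Eventually.of_forall fun η => natAbs_le_sweep i le_rfl)
  have h1 : (1 : ℝ) ≤ ∫ η, blkH l η ∂fwdLaw μ l := by
    calc (1 : ℝ) = ∫ _, (1 : ℝ) ∂fwdLaw μ l := by simp
      _ ≤ _ := integral_mono_ae (integrable_const _) hR.integrable_blkH (by
        filter_upwards [hR.blocks] with η hη
        exact one_le_blkH (by simpa using (hη 0).2))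
  refine ⟨(∫ η, disp l i η ∂fwdLaw μ l) / ∫ η, blkH l η ∂fwdLaw μ l, ?_⟩
  filter_upwards [hR.blocks, hR.slln (measurable_blkH hR.measurable_tau) blockFun_blkH
      hR.integrable_blkH, hR.slln hDm (blockFun_disp i) hD,
    hR.slln ((measurable_of_countable fun n : ℕ => (n : ℝ)).comp
      (measurable_sweep hR.measurable_tau i)) ((blockFun_sweep i).comp fun n : ℕ => (n : ℝ)) hS]
    with η hη hH hX hY
  refine interpolate (fun k => (hη k).2) (fun k => (hη k).1) (by linarith)
    (by simpa only [lh_ctime_eq] using hH) (by simpa only [coord_ctime_eq] using hX) ?_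
  have := (tendsto_succ_div hY).sub hY
  rw [sub_self] at this
  refine this.congr fun k => ?_
  simp [Finset.sum_range_succ, add_div]

lemma null_shift (hμ : Elliptic μ) {F : Set (ℕ → Step d)} (hF : MeasurableSet F)
    (h : nu μ F = 0) (n : ℕ) : nu μ (shift n ⁻¹' F) = 0 := by
  refine measure_mono_null (t := ⋃ σ : Fin n → Step d, cyl n (ext' σ) ∩ shift n ⁻¹' F)
    (fun η hη => Set.mem_iUnion.mpr ⟨fun t => η t, fun t ht => by rw [ext'_lt _ ht], hη⟩) ?_
  exact measure_iUnion_null fun σ => le_antisymm (h ▸ prefix_le hμ n _ hF) zero_le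

omit [NeZero d] in
/-- Every escaping path has a time after which it never goes lower. -/
lemma exists_fwd {η : ℕ → Step d} (h : η ∈ Escape l) : ∃ n, shift n η ∈ Fwd l := by
  obtain ⟨N, hN⟩ := eventually_atTop.mp (h.eventually_ge_atTop (lh l η 0))
  obtain ⟨n, -, hn⟩ := Finset.exists_min_image (Finset.range (N + 1)) (lh l η)
    ⟨0, Finset.mem_range.mpr (by omega)⟩
  refine ⟨n, fun t => ?_, ?_⟩
  · have : lh l η n ≤ lh l η (n + t) := by
      rcases le_or_gt (n + t) N with h1 | h1
      · exact hn _ (Finset.mem_range.mpr (by omega))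
      · exact (hn 0 (Finset.mem_range.mpr (by omega))).trans (hN _ (by omega))
    rw [lh_add] at this
    linarith
  · have h1 := (tendsto_add_atTop_iff_nat n).mpr h
    simp only [fun t => show lh l η (t + n) = lh l η n + lh l (shift n η) t by
      rw [add_comm, lh_add]] at h1
    exact (tendsto_atTop_add_const_left _ (-lh l η n) h1).congr fun t => by ring

omit [NeZero d] in
lemma ratio_of_shift {η : ℕ → Step d} {n : ℕ} {i : Fin d} {c : ℝ}
    (h : shift n η ∈ Escape l)
    (hc : Tendsto (fun t => (pos (shift n η) t i : ℝ) / lh l (shift n η) t) atTop (𝓝 c)) :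
    Tendsto (fun t => (pos η t i : ℝ) / lh l η t) atTop (𝓝 c) := by
  refine (tendsto_add_atTop_iff_nat n).mp ?_
  have hinv : Tendsto (fun t => (lh l (shift n η) t)⁻¹) atTop (𝓝 0) := h.inv_tendsto_atTop
  have := ((hinv.const_mul (pos η n i : ℝ)).add hc).div
    ((hinv.const_mul (lh l η n)).add_const 1) (by norm_num)
  simp only [mul_zero, zero_add, div_one] at this
  refine this.congr' ?_
  filter_upwards [h.eventually_gt_atTop 0] with t ht
  rw [add_comm t n, lh_add, pos_add]
  simp only [Pi.div_apply, Pi.add_apply, Int.cast_add]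
  field_simp

lemma hasDir_of_smul {a : ℝ} (ha : 0 < a) {v : Fin d → ℝ} (h : HasDir μ (a • l) v) :
    HasDir μ l (a • v) := by
  refine ⟨by simpa [mul_left_comm, mul_assoc] using h.1, ?_⟩
  filter_upwards [h.2] with η hη he i
  have := (hη (by rwa [escape_smul ha]) i).const_mul a
  refine this.congr fun n => ?_
  rw [lh_smul, ← mul_div_assoc, mul_div_mul_left _ _ ha.ne']

theorem direction_of (hreg : ∀ l e₀, RegenStmt μ l e₀) (hsw : ∀ l e₀, SweepStmt μ l e₀)
    (l : Fin d → ℝ) : DirectionStmt μ l := by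
  intro hμ hl hpos
  have := isProbabilityMeasure_nu hμ
  obtain ⟨a, ha, e₀, hn⟩ := exists_norm hl
  suffices ∃ v, HasDir μ (a • l) v from this.elim fun v hv => ⟨a • v, hasDir_of_smul ha hv⟩
  rw [← escape_smul ha] at hpos
  generalize a • l = m at hn hpos ⊢
  have hR := hreg m e₀ hμ hn hpos
  have hc : ∀ i : Fin d, ∃ c : ℝ, i ≠ e₀.1 → ∀ᵐ η ∂fwdLaw μ m,
      Tendsto (fun t => (pos η t i : ℝ) / lh m η t) atTop (𝓝 c) := fun i => by
    by_cases hi : i = e₀.1
    · exact ⟨0, fun h => absurd hi h⟩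
    · obtain ⟨c, hc⟩ := hR.ratio (hsw m e₀ hμ hn hR i hi)
      exact ⟨c, fun _ => hc⟩
  choose c hc using hc
  have hm0 : m e₀.1 ≠ 0 := fun h0 => by
    have := hn.1
    rw [lht_vec, h0] at this
    simp at this
  set i₀ := e₀.1
  set v : Fin d → ℝ :=
    Function.update c i₀ ((1 - ∑ i ∈ Finset.univ.erase i₀, m i * c i) / m i₀) with hv
  refine ⟨v, ?_, ?_⟩
  · rw [← Finset.add_sum_erase _ _ (Finset.mem_univ i₀), hv, Function.update_self,
      mul_div_cancel₀ _ hm0]
    have h2 : ∀ b, ∑ i ∈ Finset.univ.erase i₀, m i * Function.update c i₀ b i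
        = ∑ i ∈ Finset.univ.erase i₀, m i * c i := fun b => Finset.sum_congr rfl fun i hi => by
      rw [Function.update_of_ne (Finset.ne_of_mem_erase hi)]
    rw [h2]
    ring
  set Good : Set (ℕ → Step d) :=
    {η | ∀ i, Tendsto (fun t => (pos η t i : ℝ) / lh m η t) atTop (𝓝 (v i))}
  have hGm : MeasurableSet Good := by
    rw [show Good = ⋂ i, {η | Tendsto (fun t => (pos η t i : ℝ) / lh m η t) atTop (𝓝 (v i))} from
      by ext η; simp [Good]]
    exact MeasurableSet.iInter fun i => measurableSet_tendsto _ fun t =>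
      ((measurable_of_countable fun x : Pos d => (x i : ℝ)).comp (measurable_pos t)).div
        (measurable_lh t)
  have hfwd : ∀ᵐ η ∂fwdLaw μ m, η ∈ Fwd m → η ∈ Good := by
    filter_upwards [ae_all_iff.mpr fun i => ae_all_iff.mpr fun hi => hc i hi] with η hη hF i
    by_cases hi : i = i₀
    swap
    · rw [hv, Function.update_of_ne hi]; exact hη i hi
    rw [hi, hv, Function.update_self]
    have h1 := (tendsto_finsetSum (Finset.univ.erase i₀) fun j hj =>
      (hη j (Finset.ne_of_mem_erase hj)).const_mul (m j))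
    refine ((h1.const_sub 1).div_const (m i₀)).congr' ?_
    filter_upwards [hF.2.eventually_gt_atTop 0] with t ht
    have h2 : lh m η t = m i₀ * (pos η t i₀ : ℝ)
        + ∑ j ∈ Finset.univ.erase i₀, m j * (pos η t j : ℝ) :=
      (Finset.add_sum_erase _ (fun j => m j * (pos η t j : ℝ)) (Finset.mem_univ i₀)).symm
    simp only [← mul_div_assoc, ← Finset.sum_div]
    field_simp
    linarith
  have hnull : nu μ (Fwd m \ Good) = 0 := by
    rw [ae_iff] at hfwd
    simp only [fwdLaw, Measure.smul_apply, smul_eq_mul, mul_eq_zero,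
      ENNReal.inv_eq_zero, measure_ne_top, false_or, Classical.not_imp] at hfwd
    rw [Measure.restrict_apply' measurableSet_fwd] at hfwd
    refine measure_mono_null (fun η hη => ?_) hfwd
    exact ⟨hη, hη.1⟩
  have hall : ∀ᵐ η ∂nu μ, ∀ n, shift n η ∉ Fwd m \ Good := ae_all_iff.mpr fun n => by
    rw [ae_iff]
    simp only [not_not]
    exact null_shift hμ (measurableSet_fwd.diff hGm) hnull n
  filter_upwards [hall] with η hη he i
  obtain ⟨n, hn'⟩ := exists_fwd he
  have hgood : shift n η ∈ Good := by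
    by_contra hg
    exact hη n ⟨hn', hg⟩
  exact ratio_of_shift hn'.2 (hgood i)

end Vale.Agent.P147.Dir
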