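import Vale.Agent.P147.Dir.Defs

/-!
P147: the maximal ergodic inequality, after Garsia.
-/

open MeasureTheory
open scoped ENNReal

noncomputable section

namespace Vale.Agent.P147.Dir

namespace MaxPf

variable {Ω : Type} (T : Ω → Ω) (g : Ω → ℝ)

/-- The positive maximum of the first `n` ergodic sums of `g`. -/
def mx : ℕ → Ω → ℝ
  | 0, _ => 0
  | n + 1, x => max 0 (g x + mx n (T x))

lemma mx_nonneg : ∀ (n : ℕ) (x : Ω), 0 ≤ mx T g n x
  | 0, _ => le_rfl
  | _ + 1, _ => le_max_left _ _

lemma mx_mono : ∀ (n : ℕ) (x : Ω), mx T g n x ≤ mx T g (n + 1) x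
  | 0, _ => le_max_left _ _
  | n + 1, x => max_le_max le_rfl (by linarith [mx_mono n (T x)])

lemma sum_le_mx : ∀ (n : ℕ) (x : Ω) (k : ℕ), k ≤ n →
    ∑ i ∈ Finset.range k, g (T^[i] x) ≤ mx T g n x
  | n, x, 0, _ => by simpa using mx_nonneg T g n x
  | 0, _, k + 1, h => absurd h (by omega)
  | n + 1, x, k + 1, h => by
    refine le_trans ?_ (le_max_right _ _)
    rw [Finset.sum_range_succ']
    simp only [Function.iterate_succ_apply, Function.iterate_zero_apply]
    linarith [sum_le_mx n (T x) k (by omega)]

lemma sub_le_of_pos {n : ℕ} {x : Ω} (h : 0 < mx T g n x) :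
    mx T g n x - mx T g n (T x) ≤ g x := by
  cases n with
  | zero => exact absurd h (lt_irrefl _)
  | succ m =>
    have h1 := mx_mono T g m (T x)
    have h2 : mx T g (m + 1) x = g x + mx T g m (T x) := by
      rw [mx] at h ⊢
      exact max_eq_right ((lt_max_iff.1 h).resolve_left (lt_irrefl _)).le
    linarith

end MaxPf

open MaxPf in
/-- Module MaxIneq. -/
theorem maxIneq : MaxIneqStmt := by
  intro Ω _ P _ T f hT hf hf0 n M hM
  set I := ∫⁻ x, ENNReal.ofReal (f x) ∂P with hI
  by_cases htop : I = ∞
  · rw [htop, ENNReal.top_div_of_ne_top ENNReal.ofReal_ne_top]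
    exact le_top
  have hfi : Integrable f P :=
    ⟨hf.aestronglyMeasurable, (hasFiniteIntegral_iff_ofReal (ae_of_all _ hf0)).2 (lt_top_iff_ne_top.2 htop)⟩
  set g : Ω → ℝ := fun x => f x - M with hg
  have hgi : Integrable g P := hfi.sub (integrable_const M)
  have hgm : Measurable g := hf.sub_const M
  have hm : ∀ k, Measurable (mx T g k) := by
    intro k
    induction k with
    | zero => exact measurable_const
    | succ k ih => exact measurable_const.max (hgm.add (ih.comp hT.measurable))
  have hi : ∀ k, Integrable (mx T g k) P := by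
    intro k
    induction k with
    | zero => exact integrable_const 0
    | succ k ih =>
      exact (integrable_const 0).sup (hgi.add
        ((hT.integrable_comp (hm k).aestronglyMeasurable).2 ih))
  set A : Set Ω := {x | 0 < mx T g n x}
  have hA : MeasurableSet A := measurableSet_lt measurable_const (hm n)
  have hsub : {x | ∃ k, 1 ≤ k ∧ k ≤ n ∧ M * (k : ℝ) < ∑ i ∈ Finset.range k, f (T^[i] x)} ⊆ A := by
    rintro x ⟨k, -, hk, hlt⟩
    refine lt_of_lt_of_le ?_ (sum_le_mx T g n x k hk)
    simp only [hg, Finset.sum_sub_distrib, Finset.sum_const, Finset.card_range, nsmul_eq_mul]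
    linarith
  have hmap : ∫ x, mx T g n (T x) ∂P = ∫ x, mx T g n x ∂P := by
    have h := integral_map hT.measurable.aemeasurable (μ := P)
      (f := mx T g n) (by rw [hT.map_eq]; exact (hm n).aestronglyMeasurable)
    rw [hT.map_eq] at h
    exact h.symm
  have hpt : ∀ x, mx T g n x - mx T g n (T x) ≤ A.indicator g x := by
    intro x
    by_cases hx : x ∈ A
    · rw [Set.indicator_of_mem hx]; exact sub_le_of_pos T g hx
    · rw [Set.indicator_of_notMem hx]
      have h1 : mx T g n x ≤ 0 := not_lt.1 hx
      linarith [mx_nonneg T g n (T x)]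
  have hiT : Integrable (fun x => mx T g n (T x)) P :=
    (hT.integrable_comp (hm n).aestronglyMeasurable).2 (hi n)
  have h0 : 0 ≤ ∫ x in A, g x ∂P := by
    rw [← integral_indicator hA]
    refine le_trans (le_of_eq ?_) (integral_mono ((hi n).sub hiT) (hgi.indicator hA) hpt)
    rw [Pi.sub_def, integral_sub (hi n) hiT, hmap, sub_self]
  have h1 : M * P.real A ≤ ∫ x, f x ∂P := by
    rw [hg, integral_sub hfi.integrableOn (integrableOn_const (measure_ne_top _ _)),
      setIntegral_const, smul_eq_mul] at h0
    have := setIntegral_le_integral hfi (s := A) (ae_of_all _ hf0)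
    linarith
  refine (measure_mono hsub).trans ?_
  have h2 : I = ENNReal.ofReal (∫ x, f x ∂P) := by
    rw [hI, ofReal_integral_eq_lintegral_ofReal hfi (ae_of_all _ hf0)]
  rw [h2, ← ENNReal.ofReal_div_of_pos hM, ← ofReal_measureReal (measure_ne_top P A)]
  exact ENNReal.ofReal_le_ofReal ((le_div_iff₀' hM).2 h1)

end Vale.Agent.P147.Dir
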