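import Vale.Agent.P147.Dir.Regen
import Vale.Agent.P147.Dir.Direction

/-!
P147: two escapes along one line have exactly opposite asymptotic directions.
-/

open MeasureTheory Filter
open scoped ENNReal Topology

noncomputable section

namespace Vale.Agent.P147.Dir

variable {d : ℕ}

lemma lh_neg (l : Fin d → ℝ) (η : ℕ → Step d) (n : ℕ) : lh (-l) η n = -lh l η n := by
  simp [lh, lht]

lemma not_escape_both {l : Fin d → ℝ} {η : ℕ → Step d} (h : η ∈ Escape l) :
    η ∉ Escape (-l) := fun h' => by
  obtain ⟨n, h1, h2⟩ := ((h.eventually_gt_atTop 0).and (h'.eventually_gt_atTop 0)).exists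
  rw [lh_neg] at h2
  linarith

/-- A direction with a positive slope on the escape event is escaped along too. -/
lemma escape_of_rate {l v α : Fin d → ℝ} {η : ℕ → Step d} (h : η ∈ Escape l)
    (hv : ∀ i, Tendsto (fun n => (pos η n i : ℝ) / lh l η n) atTop (𝓝 (v i)))
    (ha : 0 < ∑ i, α i * v i) : η ∈ Escape α := by
  have h1 : Tendsto (fun n => lh α η n / lh l η n) atTop (𝓝 (∑ i, α i * v i)) := by
    refine (tendsto_finsetSum _ fun i _ => (hv i).const_mul (α i)).congr fun n => ?_
    simp only [lh, lht, Finset.sum_div, mul_div_assoc]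
  refine (Filter.Tendsto.atTop_mul_pos ha h h1).congr' ?_
  filter_upwards [h.eventually_gt_atTop 0] with n hn
  field_simp

variable [NeZero d] {μ : Measure (Step d → ℝ)}

theorem opposite : OppositeStmt μ := by
  intro hμ l v v' hl hl' ⟨hv1, hv⟩ ⟨hv'1, hv'⟩
  have := isProbabilityMeasure_nu hμ
  by_contra hne
  obtain ⟨i, hi⟩ := Function.ne_iff.mp hne
  simp only [Pi.neg_apply] at hi
  have hlv' : ∑ j, l j * v' j = -1 := by
    simp only [Pi.neg_apply, neg_mul, Finset.sum_neg_distrib] at hv'1
    linarith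
  -- a second direction escaped along on both sides
  set δ := (v i + v' i) / 2
  have hδ : δ ≠ 0 := fun h => hi (by simp only [δ] at h; linarith)
  set β : Fin d → ℝ := fun j => δ * ((Pi.single i 1 : Fin d → ℝ) j - (v i - v' i) / 2 * l j)
  have hβ : ∀ u : Fin d → ℝ, ∑ j, β j * u j = δ * (u i - (v i - v' i) / 2 * ∑ j, l j * u j) :=
    fun u => by
      simp only [β, mul_assoc, sub_mul, ← Finset.mul_sum, Finset.sum_sub_distrib]
      simp [Pi.single_apply, ite_mul]
  have hb1 : 0 < ∑ j, β j * v j := by
    rw [hβ, hv1, show v i - (v i - v' i) / 2 * 1 = δ by simp only [δ]; ring]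
    exact mul_self_pos.mpr hδ
  have hb2 : 0 < ∑ j, β j * v' j := by
    rw [hβ, hlv', show v' i - (v i - v' i) / 2 * -1 = δ by simp only [δ]; ring]
    exact mul_self_pos.mpr hδ
  have hup : ∀ᵐ η ∂nu μ, η ∈ Escape l → η ∈ Escape β := by
    filter_upwards [hv] with η h he using escape_of_rate he (h he) hb1
  have hdown : ∀ᵐ η ∂nu μ, η ∈ Escape (-l) → η ∈ Escape β := by
    filter_upwards [hv'] with η h he using escape_of_rate he (h he) hb2
  set S := Escape (-l) ∩ Fwd β
  have hSm : MeasurableSet S := measurableSet_escape.inter measurableSet_fwd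
  have hS : nu μ S ≠ 0 := fun h0 => by
    have hall : ∀ᵐ η ∂nu μ, η ∉ Escape (-l) := by
      filter_upwards [hdown, ae_all_iff.mpr fun n => (ae_iff (p := fun η => shift n η ∉ S)).mpr
        (by simp only [not_not]; exact null_shift hμ hSm h0 n)] with η h1 h2 he
      obtain ⟨n, hn⟩ := exists_fwd (h1 he)
      exact h2 n ⟨(RegenPf.escape_shift n).2 he, hn⟩
    rw [ae_iff] at hall
    simp only [not_not] at hall
    exact hl'.ne' hall
  -- the first record of `β` above height `K` in the direction `l`
  let Top : ℕ → ℕ → Set (ℕ → Step d) := fun K t =>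
    {η | (K : ℝ) ≤ lh l η t ∧ ∀ s < t, lh β η s < lh β η t}
  let G : ℕ → ℕ → Set (ℕ → Step d) := fun K t => Top K t ∩ {η | ∀ s < t, η ∉ Top K s}
  have hTd : ∀ K s t, s ≤ t → ∀ η η', (∀ r < t, η r = η' r) → η ∈ Top K s → η' ∈ Top K s :=
    fun K s t hst η η' he ⟨h1, h2⟩ => by
      have hc : ∀ (m : Fin d → ℝ), ∀ r ≤ t, lh m η r = lh m η' r := fun m r hr =>
        lh_congr fun u hu => he u (by omega)
      exact ⟨hc l s hst ▸ h1, fun r hr => by rw [← hc β r (by omega), ← hc β s hst]; exact h2 r hr⟩
  have hGd : ∀ K t, DetBy t (G K t) := fun K t η η' he hη =>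
    ⟨hTd K t t le_rfl η η' he hη.1, fun s hs h => hη.2 s hs
      (hTd K s t hs.le η' η (fun r hr => (he r hr).symm) h)⟩
  have hGdisj : ∀ K, Pairwise (Function.onFun Disjoint (G K)) := fun K s t hst =>
    Set.disjoint_left.mpr fun η h1 h2 => by
      rcases lt_or_gt_of_ne hst with h | h
      · exact h2.2 s h h1.1
      · exact h1.2 t h h2.1
  have hcov : ∀ K, nu μ (Escape l) ≤ nu μ (⋃ t, G K t) := fun K => by
    refine measure_mono_ae ?_
    filter_upwards [hup] with η h he
    obtain ⟨N, hN⟩ := eventually_atTop.mp (he.eventually_ge_atTop (K : ℝ))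
    have hex : ∃ t, η ∈ Top K t := by
      classical
      obtain ⟨m, -, hm⟩ := Finset.exists_max_image (Finset.range (N + 1)) (lh β η)
        ⟨0, Finset.mem_range.mpr (by omega)⟩
      have hex' : ∃ t, lh β η m < lh β η t :=
        ((h he).eventually_gt_atTop (lh β η m)).exists
      refine ⟨Nat.find hex', hN _ ?_, fun s hs => ?_⟩
      · by_contra hc
        exact (Nat.find_spec hex').not_ge (hm _ (Finset.mem_range.mpr (by omega)))
      · exact (not_lt.mp (Nat.find_min hex' hs)).trans_lt (Nat.find_spec hex')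
    classical
    exact Set.mem_iUnion.mpr ⟨Nat.find hex, Nat.find_spec hex, fun s hs => Nat.find_min hex hs⟩
  let Late : ℕ → Set (ℕ → Step d) := fun K => Escape (-l) ∩ ⋃ t, {η | (K : ℝ) ≤ lh l η t}
  have hbound : ∀ K, nu μ (Escape l) * nu μ S ≤ nu μ (Late K) := fun K => by
    calc nu μ (Escape l) * nu μ S ≤ (∑' t, nu μ (G K t)) * nu μ S := by
          gcongr
          exact (hcov K).trans (measure_iUnion_le _)
      _ = ∑' t, nu μ (G K t ∩ shift t ⁻¹' S) := by
          rw [← ENNReal.tsum_mul_right]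
          refine tsum_congr fun t => (RegenPf.split_fwd hμ (hGd K t) (fun ξ hξ s hs => ?_)
            measurableSet_escape).symm
          have := hξ.1.2 s hs
          simp only [lh] at this
          simp only [RegenPf.Above, Set.mem_ofPred_eq, RegenPf.lht_sub]
          linarith
      _ = nu μ (⋃ t, G K t ∩ shift t ⁻¹' S) :=
          (measure_iUnion (fun s t hst => (hGdisj K hst).mono Set.inter_subset_left
            Set.inter_subset_left)
            fun t => (hGd K t).measurableSet.inter (measurable_shift t hSm)).symm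
      _ ≤ nu μ (Late K) := measure_mono <| Set.iUnion_subset fun t η hη =>
          ⟨(RegenPf.escape_shift t).1 hη.2.1, Set.mem_iUnion.mpr ⟨t, hη.1.1.1⟩⟩
  have hzero : Tendsto (fun K => nu μ (Late K)) atTop (𝓝 0) := by
    have hanti : Antitone Late := fun a b hab η ⟨h1, h2⟩ => by
      obtain ⟨t, ht⟩ := Set.mem_iUnion.mp h2
      exact ⟨h1, Set.mem_iUnion.mpr ⟨t, le_trans (Nat.cast_le.mpr hab) (show (b : ℝ) ≤ lh l η t from ht)⟩⟩
    have hempty : ⋂ K, Late K = ∅ := by
      refine Set.eq_empty_of_forall_notMem fun η hη => ?_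
      rw [Set.mem_iInter] at hη
      obtain ⟨n, hn, -⟩ := exists_fwd (hη 0).1
      obtain ⟨N, hN⟩ : ∃ N : ℕ, ∀ t, lh l η t < N := by
        obtain ⟨m, -, hm⟩ := Finset.exists_max_image (Finset.range (n + 1)) (lh l η)
          ⟨0, Finset.mem_range.mpr (by omega)⟩
        obtain ⟨N, hN⟩ := exists_nat_gt (lh l η m)
        refine ⟨N, fun t => lt_of_le_of_lt ?_ hN⟩
        rcases le_or_gt t n with ht | ht
        · exact hm t (Finset.mem_range.mpr (by omega))
        · obtain ⟨u, rfl⟩ := Nat.exists_eq_add_of_le ht.le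
          have := hn u
          rw [lh_neg] at this
          rw [lh_add]
          linarith [hm n (Finset.mem_range.mpr (by omega))]
      obtain ⟨t, ht⟩ := Set.mem_iUnion.mp (hη N).2
      exact (hN t).not_ge ht
    have := tendsto_measure_iInter_atTop (μ := nu μ)
      (fun K => (measurableSet_escape.inter (MeasurableSet.iUnion fun t =>
        measurableSet_le measurable_const (measurable_lh t))).nullMeasurableSet) hanti
      ⟨0, measure_ne_top _ _⟩
    rwa [hempty, measure_empty] at this
  exact mul_ne_zero hl.ne' hS (le_antisymm (ge_of_tendsto' hzero hbound) zero_le)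

end Vale.Agent.P147.Dir
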