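import Vale.Agent.P147.Dir.Defs

/-!
P147: regenerations in a real direction: the blocks are stationary, the first one is independent
of the rest, and the mean height of a block is finite.
-/

open MeasureTheory Filter
open scoped ENNReal Topology

noncomputable section

namespace Vale.Agent.P147.Dir

variable {d : ℕ}

namespace RegenPf

variable {l : Fin d → ℝ}

/-- The sites of nonnegative height. -/
def Above (l : Fin d → ℝ) : Set (Pos d) := {x | 0 ≤ lht l x}

lemma lht_add (l : Fin d → ℝ) (x y : Pos d) : lht l (x + y) = lht l x + lht l y := by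
  simp only [lht, Pi.add_apply, Int.cast_add, mul_add, Finset.sum_add_distrib]

lemma lht_sub (l : Fin d → ℝ) (x y : Pos d) : lht l (x - y) = lht l x - lht l y := by
  simp only [lht, Pi.sub_apply, Int.cast_sub, mul_sub, Finset.sum_sub_distrib]

@[simp] lemma lh_zero (l : Fin d → ℝ) (η : ℕ → Step d) : lh l η 0 = 0 := by
  simp [lh, lht, pos]

lemma lh_add (l : Fin d → ℝ) (η : ℕ → Step d) (n t : ℕ) :
    lh l η (n + t) = lh l η n + lh l (shift n η) t := by rw [lh, pos_add, lht_add]; rfl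

lemma lh_succ (l : Fin d → ℝ) (η : ℕ → Step d) (n : ℕ) :
    lh l η (n + 1) = lh l η n + lht l (vec (η n)) := by rw [lh, pos, lht_add]; rfl

lemma lh_congr (l : Fin d → ℝ) {η η' : ℕ → Step d} {n : ℕ} (h : ∀ t < n, η t = η' t) :
    lh l η n = lh l η' n := by rw [lh, lh, pos_congr h]

lemma measurable_lh (l : Fin d → ℝ) (n : ℕ) : Measurable (fun η => lh l η n) :=
  (measurable_of_countable (lht l)).comp (measurable_pos n)

lemma shift_shift (a b : ℕ) (η : ℕ → Step d) : shift b (shift a η) = shift (a + b) η := by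
  funext t; simp only [shift, add_assoc]

lemma escape_shift {η : ℕ → Step d} (n : ℕ) : shift n η ∈ Escape l ↔ η ∈ Escape l := by
  simp only [Escape, Set.mem_setOf_eq]
  rw [← tendsto_add_atTop_iff_nat (f := lh l η) n]
  have : (fun t => lh l η (t + n)) = fun t => lh l (shift n η) t + lh l η n := by
    funext t; rw [add_comm t n, lh_add, add_comm]
  rw [this]
  exact ⟨fun h => tendsto_atTop_add_const_right _ _ h,
    fun h => by simpa using tendsto_atTop_add_const_right atTop (-lh l η n) h⟩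

lemma measurableSet_escape (l : Fin d → ℝ) : MeasurableSet (Escape l) := by
  have : Escape l = ⋂ M : ℕ, ⋃ N : ℕ, ⋂ n, ⋂ (_ : N ≤ n),
      (fun η => lh l η n) ⁻¹' Set.Ici (M : ℝ) := by
    ext η
    simp only [Escape, Set.mem_setOf_eq, Set.mem_iInter, Set.mem_iUnion, Set.mem_preimage,
      Set.mem_Ici]
    constructor
    · exact fun h M => eventually_atTop.mp (h.eventually_ge_atTop (M : ℝ))
    · intro h
      refine tendsto_atTop.mpr fun b => ?_
      obtain ⟨M, hM⟩ := exists_nat_ge b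
      obtain ⟨N, hN⟩ := h M
      exact eventually_atTop.mpr ⟨N, fun n hn => hM.trans (hN n hn)⟩
  rw [this]
  exact MeasurableSet.iInter fun M => MeasurableSet.iUnion fun N => MeasurableSet.iInter fun n =>
    MeasurableSet.iInter fun _ => measurable_lh l n measurableSet_Ici

lemma fwd_eq (l : Fin d → ℝ) : Fwd l = Escape l ∩ Stay (Above l) := Set.inter_comm _ _

lemma measurableSet_fwd (l : Fin d → ℝ) : MeasurableSet (Fwd l) := by
  rw [fwd_eq]; exact (measurableSet_escape l).inter (measurableSet_stay _)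

lemma detBy_cand (l : Fin d → ℝ) (t : ℕ) : DetBy t {η | Cand l η t} := by
  intro η η' he h
  have hc : ∀ s ≤ t, lh l η s = lh l η' s := fun s hs => lh_congr l fun r hr => he r (by omega)
  exact ⟨hc t le_rfl ▸ h.1, fun s hs => by rw [← hc s hs.le, ← hc t le_rfl]; exact h.2 s hs⟩

lemma cand_past {η : ℕ → Step d} {t s : ℕ} (h : Cand l η t) (hs : s < t) :
    pos η s - pos η t ∉ Above l := by
  simp only [Above, Set.mem_setOf_eq, lht_sub]
  have := h.2 s hs
  simp only [lh] at this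
  linarith

/-- Time `t` is the first regeneration, as seen from the first `t` steps. -/
def First (l : Fin d → ℝ) (t : ℕ) : Set (ℕ → Step d) :=
  {η | Cand l η t ∧ (∀ u ≤ t, 0 ≤ lh l η u) ∧
    ∀ s < t, Cand l η s → ∃ u, s ≤ u ∧ u ≤ t ∧ lh l η u < lh l η s}

lemma detBy_first (l : Fin d → ℝ) (t : ℕ) : DetBy t (First l t) := by
  intro η η' he ⟨h1, h2, h3⟩
  have hc : ∀ s ≤ t, lh l η s = lh l η' s := fun s hs => lh_congr l fun r hr => he r (by omega)
  refine ⟨detBy_cand l t η η' he h1, fun u hu => hc u hu ▸ h2 u hu, fun s hs hs' => ?_⟩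
  obtain ⟨u, hu1, hu2, hu3⟩ := h3 s hs
    (detBy_cand l s η' η (fun r hr => (he r (by omega)).symm) hs')
  exact ⟨u, hu1, hu2, by rw [← hc u hu2, ← hc s hs.le]; exact hu3⟩

/-- The forward paths whose first regeneration is at time `t`. -/
def At (l : Fin d → ℝ) (t : ℕ) : Set (ℕ → Step d) := First l t ∩ shift t ⁻¹' Fwd l

/-- The forward paths with a regeneration. -/
def Good (l : Fin d → ℝ) : Set (ℕ → Step d) := ⋃ t, At l t

lemma tau_spec {η : ℕ → Step d} (h : ∃ t, RegT l η t) :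
    RegT l η (tau l η) ∧ ∀ s < tau l η, ¬ RegT l η s := by
  classical
  simp only [tau, dif_pos h]
  exact ⟨Nat.find_spec h, fun s hs => Nat.find_min h hs⟩

lemma tau_eq {η : ℕ → Step d} {t : ℕ} (h : RegT l η t) (h' : ∀ s < t, ¬ RegT l η s) :
    tau l η = t := by
  obtain ⟨h1, h2⟩ := tau_spec ⟨t, h⟩
  rcases lt_trichotomy (tau l η) t with hlt | he | hlt
  · exact absurd h1 (h' _ hlt)
  · exact he
  · exact absurd h (h2 _ hlt)

lemma mem_at {η : ℕ → Step d} {t : ℕ} :
    η ∈ At l t ↔ η ∈ Fwd l ∧ (∃ s, RegT l η s) ∧ tau l η = t := by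
  constructor
  · rintro ⟨⟨h1, h2, h3⟩, hf⟩
    have hE : η ∈ Escape l := (escape_shift t).1 hf.2
    have hreg : RegT l η t := ⟨h1, hf⟩
    refine ⟨⟨fun u => ?_, hE⟩, ⟨t, hreg⟩, tau_eq hreg fun s hs hr => ?_⟩
    · rcases le_or_gt u t with hu | hu
      · exact h2 u hu
      · obtain ⟨v, rfl⟩ := Nat.exists_eq_add_of_le hu.le
        rw [lh_add]
        have := hf.1 v
        have := h1.1
        linarith
    · obtain ⟨u, hu1, hu2, hu3⟩ := h3 s hs hr.1
      obtain ⟨v, rfl⟩ := Nat.exists_eq_add_of_le hu1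
      have := hr.2.1 v
      rw [lh_add] at hu3
      linarith
  · rintro ⟨hf, hex, rfl⟩
    obtain ⟨h1, h2⟩ := tau_spec hex
    refine ⟨⟨h1.1, fun u _ => hf.1 u, fun s hs hc => ?_⟩, h1.2⟩
    by_contra hno
    push Not at hno
    refine h2 s hs ⟨hc, fun v => ?_, (escape_shift s).2 hf.2⟩
    have e := lh_add l η s v
    rcases le_or_gt (s + v) (tau l η) with hv | hv
    · have := hno (s + v) (Nat.le_add_right _ _) hv
      linarith
    · obtain ⟨w, hw⟩ := Nat.exists_eq_add_of_le hv.le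
      have h3 := h1.2.1 w
      have h4 := h1.1.2 s hs
      have h5 := lh_add l η (tau l η) w
      rw [← hw] at h5
      linarith

lemma mem_good {η : ℕ → Step d} : η ∈ Good l ↔ η ∈ Fwd l ∧ ∃ s, RegT l η s := by
  simp only [Good, Set.mem_iUnion, mem_at]
  exact ⟨fun ⟨t, h⟩ => ⟨h.1, h.2.1⟩, fun h => ⟨_, h.1, h.2, rfl⟩⟩

lemma at_disjoint : Pairwise (Function.onFun Disjoint (At l)) := fun _ _ hab =>
  Set.disjoint_left.mpr fun _ ha hb => hab ((mem_at.1 ha).2.2.symm.trans (mem_at.1 hb).2.2)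

/-- Level `2 j` is first reached at time `p`. -/
def Lev (l : Fin d → ℝ) (j p : ℕ) : Set (ℕ → Step d) :=
  {η | (2 * j : ℝ) ≤ lh l η p ∧ ∀ s < p, lh l η s < 2 * j}

/-- Forward paths without a regeneration below height `2 g + 1`. -/
def Late (l : Fin d → ℝ) (g : ℕ) : Set (ℕ → Step d) :=
  Fwd l ∩ {η | ∀ t, RegT l η t → (2 * g + 1 : ℝ) ≤ lh l η t}

lemma detBy_lev (l : Fin d → ℝ) (j p : ℕ) : DetBy p (Lev l j p) := by
  intro η η' he h
  have hc : ∀ s ≤ p, lh l η s = lh l η' s := fun s hs => lh_congr l fun r hr => he r (by omega)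
  exact ⟨hc p le_rfl ▸ h.1, fun s hs => hc s hs.le ▸ h.2 s hs⟩

lemma lev_unique {η : ℕ → Step d} {j p q : ℕ} (hp : η ∈ Lev l j p) (hq : η ∈ Lev l j q) :
    p = q := by
  rcases lt_trichotomy p q with h | h | h
  · exact absurd (hq.2 p h) (not_lt.mpr hp.1)
  · exact h
  · exact absurd (hp.2 q h) (not_lt.mpr hq.1)

lemma lev_lt (hl : ∀ e : Step d, |lht l (vec e)| ≤ 1) {η : ℕ → Step d} {j p : ℕ}
    (h : η ∈ Lev l j p) : lh l η p < 2 * j + 1 := by
  rcases Nat.eq_zero_or_pos p with rfl | hp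
  · rw [lh_zero]; positivity
  · obtain ⟨q, rfl⟩ := Nat.exists_eq_add_of_le hp
    have := h.2 q (by omega)
    rw [add_comm 1 q, lh_succ]
    have := (abs_le.1 (hl (η q))).2
    linarith

lemma lev_cand {η : ℕ → Step d} {j p : ℕ} (h : η ∈ Lev l j p) {s : ℕ} (hs : s < p) :
    pos η s - pos η p ∉ Above l := by
  simp only [Above, Set.mem_setOf_eq, lht_sub]
  have h1 := h.2 s hs
  have h2 := h.1
  simp only [lh] at h1 h2
  linarith

lemma lev_exists {η : ℕ → Step d} (h : η ∈ Escape l) (j : ℕ) : ∃ p, η ∈ Lev l j p := by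
  classical
  have hex : ∃ p, (2 * j : ℝ) ≤ lh l η p := (h.eventually_ge_atTop _).exists
  exact ⟨Nat.find hex, Nat.find_spec hex, fun s hs => not_le.mp (Nat.find_min hex hs)⟩

variable [NeZero d] {μ : Measure (Step d → ℝ)}

lemma measurableSet_regT (l : Fin d → ℝ) (t : ℕ) : MeasurableSet {η | RegT l η t} :=
  (DetBy.measurableSet (detBy_cand l t)).inter (measurable_shift t (measurableSet_fwd l))

lemma measurableSet_late (l : Fin d → ℝ) (g : ℕ) : MeasurableSet (Late l g) := by
  refine (measurableSet_fwd l).inter ?_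
  have : {η : ℕ → Step d | ∀ t, RegT l η t → (2 * g + 1 : ℝ) ≤ lh l η t} =
      ⋂ t, {η | RegT l η t}ᶜ ∪ (fun η => lh l η t) ⁻¹' Set.Ici (2 * g + 1 : ℝ) := by
    ext η; simp [imp_iff_not_or]
  rw [this]
  exact MeasurableSet.iInter fun t =>
    (measurableSet_regT l t).compl.union (measurable_lh l t measurableSet_Ici)

lemma measurableSet_at (l : Fin d → ℝ) (t : ℕ) : MeasurableSet (At l t) :=
  (detBy_first l t).measurableSet.inter (measurable_shift t (measurableSet_fwd l))

lemma measurable_tau (l : Fin d → ℝ) : Measurable (tau l) := by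
  classical
  refine measurable_to_countable' fun n => ?_
  have h : tau l ⁻¹' {n} =
      ({η | RegT l η n} ∩ ⋂ s, ⋂ (_ : s < n), {η | RegT l η s}ᶜ) ∪
        (if n = 0 then ⋂ s, {η | RegT l η s}ᶜ else ∅) := by
    ext η
    simp only [Set.mem_preimage, Set.mem_singleton_iff, Set.mem_union, Set.mem_inter_iff,
      Set.mem_iInter, Set.mem_compl_iff, Set.mem_setOf_eq]
    constructor
    · intro he
      by_cases hex : ∃ t, RegT l η t
      · exact Or.inl (he ▸ tau_spec hex)
      · have h0 : tau l η = 0 := dif_neg hex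
        refine Or.inr ?_
        rw [← he, h0, if_pos rfl]
        simpa using hex
    · rintro (⟨h1, h2⟩ | h3)
      · exact tau_eq h1 h2
      · split_ifs at h3 with hn
        · simp only [Set.mem_iInter, Set.mem_compl_iff, Set.mem_setOf_eq] at h3
          rw [hn]
          exact dif_neg fun ⟨t, ht⟩ => h3 t ht
        · exact absurd h3 (Set.notMem_empty _)
  rw [h]
  refine ((measurableSet_regT l n).inter (MeasurableSet.iInter fun s => MeasurableSet.iInter
    fun _ => (measurableSet_regT l s).compl)).union ?_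
  split_ifs
  · exact MeasurableSet.iInter fun s => (measurableSet_regT l s).compl
  · exact MeasurableSet.empty

lemma measurable_next (l : Fin d → ℝ) : Measurable (next l) := by
  refine measurable_pi_lambda _ fun t => ?_
  exact (measurable_from_prod_countable_left (f := fun r : (ℕ → Step d) × ℕ => r.1 (r.2 + t))
    fun n => measurable_pi_apply (n + t)).comp (measurable_id.prodMk (measurable_tau l))

lemma fwd_pos (hμ : Elliptic μ) (h : 0 < nu μ (Escape l)) : 0 < nu μ (Fwd l) := by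
  rw [pos_iff_ne_zero] at h ⊢
  intro h0
  refine h (measure_mono_null (t := ⋃ t, ⋃ σ : Fin t → Step d,
    cyl t (ext' σ) ∩ shift t ⁻¹' Fwd l) (fun η hη => ?_) ?_)
  · obtain ⟨N, hN⟩ := eventually_atTop.mp (hη.eventually_ge_atTop (0 : ℝ))
    obtain ⟨t, -, ht⟩ := Finset.exists_min_image (Finset.range (N + 1)) (lh l η) ⟨0, by simp⟩
    refine Set.mem_iUnion.mpr ⟨t, Set.mem_iUnion.mpr ⟨fun s => η s,
      fun s hs => by rw [ext'_lt _ hs], fun u => ?_, (escape_shift t).2 hη⟩⟩
    have h1 := lh_add l η t u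
    have h0 := ht 0 (by simp)
    rw [lh_zero] at h0
    rcases lt_or_ge (t + u) (N + 1) with hu | hu
    · have := ht (t + u) (Finset.mem_range.mpr hu)
      linarith
    · have := hN (t + u) (by omega)
      linarith
  · exact measure_iUnion_null fun t => measure_iUnion_null fun σ => nonpos_iff_eq_zero.mp
      (le_of_le_of_eq (prefix_le hμ t _ (measurableSet_fwd l)) h0)

/-- A future confined above splits off. -/
lemma split_fwd (hμ : Elliptic μ) {t : ℕ} {G : Set (ℕ → Step d)} (hG : DetBy t G)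
    (hA : ∀ ξ ∈ G, ∀ s < t, pos ξ s - pos ξ t ∉ Above l) {F : Set (ℕ → Step d)}
    (hF : MeasurableSet F) :
    nu μ (G ∩ shift t ⁻¹' (F ∩ Fwd l)) = nu μ G * nu μ (F ∩ Fwd l) := by
  rw [fwd_eq, ← Set.inter_assoc]
  exact split hμ hG hA (hF.inter (measurableSet_escape l))

lemma late_sum (hμ : Elliptic μ) (hl : ∀ e : Step d, |lht l (vec e)| ≤ 1) (N : ℕ) :
    nu μ (Escape l) * ∑ g ∈ Finset.range (N + 1), nu μ (Late l g) ≤ 1 := by
  have := isProbabilityMeasure_nu hμ
  set S : ℕ → Set (ℕ → Step d) := fun j => ⋃ p, Lev l j p ∩ shift p ⁻¹' Late l (N - j)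
  have hmeas : ∀ j p, MeasurableSet (Lev l j p ∩ shift p ⁻¹' Late l (N - j)) := fun j p =>
    (detBy_lev l j p).measurableSet.inter (measurable_shift p (measurableSet_late l _))
  have hdisj : Set.PairwiseDisjoint ((Finset.range (N + 1) : Finset ℕ) : Set ℕ) S := by
    intro i hi j hj hij
    wlog hlt : i < j generalizing i j
    · exact (this hj hi hij.symm (by omega)).symm
    refine Set.disjoint_left.mpr fun η h1 h2 => ?_
    obtain ⟨p, hp, hfp⟩ := Set.mem_iUnion.1 h1
    obtain ⟨q, hq, hfq⟩ := Set.mem_iUnion.1 h2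
    have hjN : j ≤ N := by have := Finset.mem_range.1 (Finset.mem_coe.1 hj); omega
    have hplt := lev_lt hl hp
    have hqlt := lev_lt hl hq
    have hij' : (i : ℝ) + 1 ≤ j := by exact_mod_cast hlt
    have hpq : p < q := by
      by_contra hc
      rcases (not_lt.1 hc).eq_or_lt with he | hlt'
      · rw [he] at hq
        linarith [hq.1]
      · linarith [hp.2 q hlt', hq.1]
    obtain ⟨v, rfl⟩ := Nat.exists_eq_add_of_le hpq.le
    have e1 := lh_add l η p v
    have hreg : RegT l (shift p η) v := by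
      refine ⟨⟨by linarith [hq.1], fun s hs => ?_⟩, ?_⟩
      · have := hq.2 (p + s) (by omega)
        rw [lh_add] at this
        linarith [hq.1]
      · rw [shift_shift]
        exact hfq.1
    have := hfp.2 v hreg
    have hcast : ((N - i : ℕ) : ℝ) = (N : ℝ) - i := Nat.cast_sub (by omega)
    rw [hcast] at this
    have hjN' : (j : ℝ) ≤ N := by exact_mod_cast hjN
    linarith [hq.1, hp.1]
  have hS : ∀ j, nu μ (Escape l) * nu μ (Late l (N - j)) ≤ nu μ (S j) := by
    intro j
    have hd1 : Pairwise (Function.onFun Disjoint fun p => Lev l j p) := fun a b hab =>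
      Set.disjoint_left.mpr fun η ha hb => hab (lev_unique ha hb)
    have hd2 : Pairwise (Function.onFun Disjoint fun p => Lev l j p ∩ shift p ⁻¹' Late l (N - j)) :=
      fun a b hab => (hd1 hab).mono Set.inter_subset_left Set.inter_subset_left
    have heq : ∀ p, nu μ (Lev l j p ∩ shift p ⁻¹' Late l (N - j)) =
        nu μ (Lev l j p) * nu μ (Late l (N - j)) := fun p => by
      have h := split_fwd (l := l) hμ (detBy_lev l j p) (fun ξ hξ s hs => lev_cand hξ hs)
        (measurableSet_late l (N - j))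
      rwa [Set.inter_eq_left.mpr (show Late l (N - j) ⊆ Fwd l from Set.inter_subset_left)] at h
    calc nu μ (Escape l) * nu μ (Late l (N - j))
        ≤ nu μ (⋃ p, Lev l j p) * nu μ (Late l (N - j)) :=
          mul_le_mul' (measure_mono fun η hη => Set.mem_iUnion.2 (lev_exists hη j)) le_rfl
      _ = ∑' p, nu μ (Lev l j p ∩ shift p ⁻¹' Late l (N - j)) := by
          rw [measure_iUnion hd1 fun p => (detBy_lev l j p).measurableSet, ← ENNReal.tsum_mul_right]
          exact tsum_congr fun p => (heq p).symm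
      _ = _ := (measure_iUnion hd2 (hmeas j)).symm
  calc nu μ (Escape l) * ∑ g ∈ Finset.range (N + 1), nu μ (Late l g)
      = ∑ j ∈ Finset.range (N + 1), nu μ (Escape l) * nu μ (Late l (N - j)) := by
        rw [Finset.mul_sum, ← Finset.sum_range_reflect]
        simp
    _ ≤ ∑ j ∈ Finset.range (N + 1), nu μ (S j) := Finset.sum_le_sum fun j _ => hS j
    _ = nu μ (⋃ j ∈ Finset.range (N + 1), S j) :=
        (measure_biUnion_finset hdisj fun j _ => MeasurableSet.iUnion (hmeas j)).symm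
    _ ≤ 1 := prob_le_one

lemma late_tsum (hμ : Elliptic μ) (hl : ∀ e : Step d, |lht l (vec e)| ≤ 1)
    (h : 0 < nu μ (Escape l)) : ∑' g, nu μ (Late l g) ≠ ∞ := by
  have := isProbabilityMeasure_nu hμ
  refine ne_top_of_le_ne_top (ENNReal.inv_ne_top.mpr h.ne') ?_
  rw [ENNReal.tsum_eq_iSup_nat]
  refine iSup_le fun N => ?_
  rw [ENNReal.le_inv_iff_mul_le, mul_comm]
  refine le_trans ?_ (late_sum hμ hl N)
  exact mul_le_mul' le_rfl (Finset.sum_le_sum_of_subset (Finset.range_mono (Nat.le_succ N)))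

lemma no_regen_null (hμ : Elliptic μ) (hl : ∀ e : Step d, |lht l (vec e)| ≤ 1)
    (h : 0 < nu μ (Escape l)) : nu μ (Fwd l \ Good l) = 0 := by
  by_contra hne
  refine late_tsum hμ hl h (top_le_iff.1 ?_)
  have hle : ∀ g, nu μ (Fwd l \ Good l) ≤ nu μ (Late l g) := fun g =>
    measure_mono fun η ⟨hf, hg⟩ => ⟨hf, fun t ht => absurd (mem_good.2 ⟨hf, t, ht⟩) hg⟩
  calc (∞ : ℝ≥0∞) = ∑' _ : ℕ, nu μ (Fwd l \ Good l) := (ENNReal.tsum_const_eq_top_of_ne_zero hne).symm
    _ ≤ _ := ENNReal.tsum_le_tsum hle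

lemma ae_regT (hμ : Elliptic μ) (hl : ∀ e : Step d, |lht l (vec e)| ≤ 1)
    (h : 0 < nu μ (Escape l)) : ∀ᵐ η ∂fwdLaw μ l, η ∈ Fwd l ∧ ∃ t, RegT l η t := by
  have h1 : ∀ᵐ η ∂(nu μ).restrict (Fwd l), η ∈ Good l := by
    rw [ae_iff]
    have : {η : ℕ → Step d | ¬ η ∈ Good l} = (Good l)ᶜ := rfl
    rw [this, Measure.restrict_apply' (measurableSet_fwd l), Set.inter_comm, ← Set.diff_eq]
    exact no_regen_null hμ hl h
  exact (Measure.ae_smul_measure h1 _).mono fun η hη => mem_good.1 hη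

/-- The split at the first regeneration, before normalisation. -/
lemma split_good (hμ : Elliptic μ) {G F : Set (ℕ → Step d)} (hGm : MeasurableSet G)
    (hF : MeasurableSet F) (hG : BlockDet l G) :
    nu μ (G ∩ next l ⁻¹' F ∩ Good l) * nu μ (Fwd l) =
      nu μ (G ∩ Good l) * nu μ (F ∩ Fwd l) := by
  set Gt : ℕ → Set (ℕ → Step d) := fun t => {η | ∃ η' ∈ G ∩ At l t, ∀ s < t, η' s = η s}
  have hdet : ∀ t, DetBy t (Gt t) := fun t η η' he ⟨ξ, hξ, hξe⟩ =>
    ⟨ξ, hξ, fun s hs => (hξe s hs).trans (he s hs)⟩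
  have hfirst : ∀ t, Gt t ⊆ First l t := fun t η ⟨ξ, hξ, hξe⟩ => detBy_first l t ξ η hξe hξ.2.1
  have hpart : ∀ F' t, G ∩ next l ⁻¹' F' ∩ At l t = Gt t ∩ shift t ⁻¹' (F' ∩ Fwd l) := by
    intro F' t
    ext η
    constructor
    · rintro ⟨⟨hg, hf⟩, hat⟩
      refine ⟨⟨η, ⟨hg, hat⟩, fun s _ => rfl⟩, ?_, hat.2⟩
      rw [Set.mem_preimage, next, (mem_at.1 hat).2.2] at hf
      exact hf
    · rintro ⟨hgt, hf, hfw⟩
      have hat : η ∈ At l t := ⟨hfirst t hgt, hfw⟩
      obtain ⟨ξ, ⟨hξG, hξat⟩, hξe⟩ := hgt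
      obtain ⟨a1, a2, a3⟩ := mem_at.1 hξat
      obtain ⟨b1, b2, b3⟩ := mem_at.1 hat
      refine ⟨⟨hG ξ η a1 b1 a2 b2 (a3.trans b3.symm) (a3 ▸ hξe) hξG, ?_⟩, hat⟩
      rw [Set.mem_preimage, next, b3]
      exact hf
  have hsum : ∀ F', MeasurableSet F' →
      nu μ (G ∩ next l ⁻¹' F' ∩ Good l) = (∑' t, nu μ (Gt t)) * nu μ (F' ∩ Fwd l) := by
    intro F' hF'
    rw [Good, Set.inter_iUnion, measure_iUnion
      (fun a b hab => (at_disjoint hab).mono Set.inter_subset_right Set.inter_subset_right)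
      fun t => (hGm.inter (measurable_next l hF')).inter (measurableSet_at l t),
      ← ENNReal.tsum_mul_right]
    refine tsum_congr fun t => ?_
    rw [hpart, split_fwd hμ (hdet t) (fun ξ hξ s hs => cand_past (hfirst t hξ).1 hs) hF']
  have h1 := hsum Set.univ MeasurableSet.univ
  rw [Set.preimage_univ, Set.inter_univ, Set.univ_inter] at h1
  rw [hsum F hF, h1]
  ring

lemma fwdLaw_apply {S : Set (ℕ → Step d)} :
    fwdLaw μ l S = (nu μ (Fwd l))⁻¹ * nu μ (S ∩ Fwd l) := by
  rw [fwdLaw, Measure.smul_apply, smul_eq_mul, Measure.restrict_apply' (measurableSet_fwd l)]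

lemma product (hμ : Elliptic μ) (hl : ∀ e : Step d, |lht l (vec e)| ≤ 1)
    (h : 0 < nu μ (Escape l)) {G F : Set (ℕ → Step d)} (hGm : MeasurableSet G)
    (hF : MeasurableSet F) (hG : BlockDet l G) :
    fwdLaw μ l (G ∩ next l ⁻¹' F) = fwdLaw μ l G * fwdLaw μ l F := by
  have := isProbabilityMeasure_nu hμ
  have hp := (fwd_pos hμ h).ne'
  have hgood : ∀ S : Set (ℕ → Step d), nu μ (S ∩ Fwd l) = nu μ (S ∩ Good l) := by
    intro S
    refine le_antisymm ?_ (measure_mono (Set.inter_subset_inter_right S fun η hη => (mem_good.1 hη).1))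
    calc nu μ (S ∩ Fwd l) ≤ nu μ ((S ∩ Good l) ∪ (Fwd l \ Good l)) :=
          measure_mono fun η ⟨h1, h2⟩ => by
            by_cases hg : η ∈ Good l
            · exact Or.inl ⟨h1, hg⟩
            · exact Or.inr ⟨h2, hg⟩
      _ ≤ _ := (measure_union_le _ _).trans (le_of_eq (by rw [no_regen_null hμ hl h, add_zero]))
  rw [fwdLaw_apply, fwdLaw_apply, fwdLaw_apply, hgood (G ∩ _), hgood G]
  set P := nu μ (Fwd l) with hP
  have key := split_good hμ hGm hF hG
  have hPP : P⁻¹ * P = 1 := ENNReal.inv_mul_cancel hp (measure_ne_top _ _)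
  calc P⁻¹ * nu μ (G ∩ next l ⁻¹' F ∩ Good l)
      = P⁻¹ * (P⁻¹ * P) * nu μ (G ∩ next l ⁻¹' F ∩ Good l) := by rw [hPP, mul_one]
    _ = P⁻¹ * P⁻¹ * (nu μ (G ∩ next l ⁻¹' F ∩ Good l) * P) := by ring
    _ = P⁻¹ * P⁻¹ * (nu μ (G ∩ Good l) * nu μ (F ∩ Fwd l)) := by rw [key]
    _ = _ := by ring

omit [NeZero d] in
lemma blkH_le {η : ℕ → Step d} (hη : η ∈ Fwd l) :
    ENNReal.ofReal (blkH l η) ≤ 3 + 2 * ∑' g, (Late l g).indicator (fun _ => (1 : ℝ≥0∞)) η := by
  by_cases hex : ∃ t, RegT l η t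
  · obtain ⟨h1, h2⟩ := tau_spec hex
    set b := blkH l η
    have hb : 1 ≤ b := h1.1.1
    set m := ⌊(b - 1) / 2⌋₊
    have hmem : ∀ g < m, η ∈ Late l g := by
      intro g hg
      refine ⟨hη, fun t ht => ?_⟩
      have hgm : ((g : ℝ) + 1) ≤ (b - 1) / 2 :=
        le_trans (by exact_mod_cast hg) (Nat.floor_le (by linarith))
      have hbt : b ≤ lh l η t := by
        rcases lt_trichotomy t (tau l η) with h | h | h
        · exact absurd ht (h2 t h)
        · rw [h]; exact le_rfl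
        · exact (ht.1.2 _ h).le
      linarith
    have hm := Nat.lt_floor_add_one ((b - 1) / 2)
    have hsum : (m : ℝ≥0∞) ≤ ∑' g, (Late l g).indicator (fun _ => (1 : ℝ≥0∞)) η := by
      refine le_trans (le_of_eq ?_) (ENNReal.sum_le_tsum (Finset.range m))
      rw [Finset.sum_congr rfl fun g hg => Set.indicator_of_mem (hmem g (Finset.mem_range.1 hg)) _]
      simp
    calc ENNReal.ofReal b ≤ ENNReal.ofReal (3 + 2 * (m : ℝ)) :=
          ENNReal.ofReal_le_ofReal (by linarith)
      _ = 3 + 2 * (m : ℝ≥0∞) := by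
          rw [ENNReal.ofReal_add (by norm_num) (by positivity), ENNReal.ofReal_mul (by norm_num),
            ENNReal.ofReal_ofNat, ENNReal.ofReal_ofNat, ENNReal.ofReal_natCast]
      _ ≤ _ := add_le_add le_rfl (mul_le_mul' le_rfl hsum)
  · have : tau l η = 0 := dif_neg hex
    simp [blkH, this]

end RegenPf

open RegenPf in
/-- Module Regen. -/
theorem regen [NeZero d] (μ : Measure (Step d → ℝ)) (l : Fin d → ℝ) (e₀ : Step d) :
    RegenStmt μ l e₀ := by
  intro hμ hn hE
  have := isProbabilityMeasure_nu hμ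
  have hl := hn.2
  have hp := fwd_pos hμ hE
  have hprob : IsProbabilityMeasure (fwdLaw μ l) := ⟨by
    rw [fwdLaw_apply, Set.univ_inter, ENNReal.inv_mul_cancel hp.ne' (measure_ne_top _ _)]⟩
  have hpres : MeasurePreserving (next l) (fwdLaw μ l) (fwdLaw μ l) := by
    refine ⟨measurable_next l, Measure.ext fun F hF => ?_⟩
    rw [Measure.map_apply (measurable_next l) hF, ← Set.univ_inter (next l ⁻¹' F),
      product hμ hl hE MeasurableSet.univ hF (fun _ _ _ _ _ _ _ _ _ => Set.mem_univ _),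
      measure_univ, one_mul]
  have hae := ae_regT hμ hl hE
  refine ⟨hp, hprob, ?_, RegenPf.measurable_tau l, hpres,
    fun G F hG hF hB => product hμ hl hE hG hF hB, ?_⟩
  · have hall : ∀ᵐ η ∂fwdLaw μ l, ∀ k, ∃ t, RegT l ((next l)^[k] η) t :=
      ae_all_iff.2 fun k => ((hpres.iterate k).quasiMeasurePreserving.ae hae).mono fun η h => h.2
    filter_upwards [hae, hall] with η h1 h2 using ⟨h1.1, h2⟩
  · refine ne_top_of_le_ne_top ?_ (lintegral_mono_ae (hae.mono fun η h => blkH_le h.1))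
    have hm : ∀ g, Measurable ((Late l g).indicator fun _ => (1 : ℝ≥0∞)) := fun g =>
      measurable_const.indicator (measurableSet_late l g)
    rw [lintegral_add_left measurable_const, lintegral_const, measure_univ, mul_one,
      lintegral_const_mul _ (Measurable.ennreal_tsum hm), lintegral_tsum fun g => (hm g).aemeasurable]
    refine ENNReal.add_ne_top.2 ⟨ENNReal.ofNat_ne_top, ENNReal.mul_ne_top ENNReal.ofNat_ne_top ?_⟩
    have hv : ∀ g, ∫⁻ η, (Late l g).indicator (fun _ => (1 : ℝ≥0∞)) η ∂fwdLaw μ l ≤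
        (nu μ (Fwd l))⁻¹ * nu μ (Late l g) := fun g => by
      rw [lintegral_indicator_const (measurableSet_late l g), one_mul, fwdLaw_apply]
      exact mul_le_mul' le_rfl (measure_mono Set.inter_subset_left)
    refine ne_top_of_le_ne_top ?_ (ENNReal.tsum_le_tsum hv)
    rw [ENNReal.tsum_mul_left]
    exact ENNReal.mul_ne_top (ENNReal.inv_ne_top.2 hp.ne') (late_tsum hμ hl hE)

end Vale.Agent.P147.Dir
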