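import Vale.Agent.P147.Dir.SweepTrials

/-!
P147: the excursion within a block has finite mean.
-/

open MeasureTheory Filter
open scoped ENNReal Topology

noncomputable section

namespace Vale.Agent.P147.Dir.Swp

variable {d : ℕ} [NeZero d] {μ : Measure (Step d → ℝ)} {l : Fin d → ℝ} {e₀ : Step d} {i : Fin d}

lemma chain_ae (hR : Regen μ l) : ∀ᵐ η ∂fwdLaw μ l, Chain l η := hR.exists_regT

lemma nu_fwd_ne_top (hμ : Elliptic μ) : nu μ (Fwd l) ≠ ∞ := by
  have := isProbabilityMeasure_nu hμ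
  exact measure_ne_top _ _

lemma le_one_add_sq (x : ℝ≥0∞) : x ≤ 1 + x ^ 2 := by
  rcases le_or_gt x 1 with h | h
  · exact h.trans le_self_add
  · exact le_trans (by rw [sq]; exact le_mul_of_one_le_left zero_le h.le) le_add_self

lemma add_sq_le' (x y : ℝ≥0∞) : (x + y) ^ 2 ≤ 4 * x ^ 2 + 4 * y ^ 2 := by
  rcases le_total x y with h | h
  · refine le_trans (le_trans (pow_le_pow_left' (add_le_add h le_rfl) 2) (le_of_eq ?_)) le_add_self
    ring
  · refine le_trans (le_trans (pow_le_pow_left' (add_le_add le_rfl h) 2) (le_of_eq ?_)) le_self_add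
    ring

lemma mul_le_sq_add (a x y : ℝ≥0∞) (ha0 : a ≠ 0) (ha : a ≠ ∞) : x * y ≤ a * x ^ 2 + y ^ 2 / a := by
  rcases le_or_gt y (a * x) with h | h
  · refine le_trans (le_trans (mul_le_mul' le_rfl h) (le_of_eq ?_)) le_self_add
    ring
  · refine le_trans ?_ le_add_self
    rw [ENNReal.le_div_iff_mul_le (Or.inl ha0) (Or.inl ha), sq,
      show x * y * a = a * x * y by ring]
    exact mul_le_mul' h.le le_rfl

/-- Counts with a bounded second moment are almost surely finite under the conditioned law. -/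
lemma count_finite (hR : Regen μ l) {C : ℝ≥0∞} (hC : C ≠ ∞) {G : (ℕ → Step d) → ℝ≥0∞}
    (hG : Measurable G) (h2 : ∫⁻ η, G η ^ 2 ∂nu μ ≤ C) :
    (∫⁻ η, G η ^ 2 ∂fwdLaw μ l ≤ (nu μ (Fwd l))⁻¹ * C) ∧ ∀ᵐ η ∂fwdLaw μ l, G η ≠ ∞ := by
  have h := (lintegral_fwd_le (μ := μ) (l := l) fun η => G η ^ 2).trans (mul_le_mul' le_rfl h2)
  refine ⟨h, ?_⟩
  have hfin := ne_top_of_le_ne_top (ENNReal.mul_ne_top (ENNReal.inv_ne_top.2 hR.pos.ne') hC) h
  filter_upwards [ae_lt_top (hG.pow_const 2) hfin] with η hη htop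
  simp [htop] at hη

/-- The excursion on blocks of height at most `n`. -/
def trunc (l : Fin d → ℝ) (i : Fin d) (n : ℕ) : (ℕ → Step d) → ℝ≥0∞ :=
  {η | blkH l η ≤ n}.indicator fun η => (sweep l i η : ℝ≥0∞)

/-- Blocks of bounded height have a bounded mean excursion. -/
lemma small_blocks (hμ : Elliptic μ) (hn : Norm l e₀) (hR : Regen μ l) (hT : TrialStmt d)
    (hi : i ≠ e₀.1) (r : ℕ) : ∫⁻ η, trunc l i r η ∂fwdLaw μ l ≠ ∞ := by
  obtain ⟨C, hC, hG⟩ := hT _ (straight_q hμ e₀ (r + 1))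
  obtain ⟨G₁, hm₁, h₁, hd₁⟩ := hG μ _ _ hμ (straight_trial hμ hi 1 (r + 1))
  obtain ⟨G₂, hm₂, h₂, hd₂⟩ := hG μ _ _ hμ (straight_trial hμ hi (-1) (r + 1))
  obtain ⟨b₁, f₁⟩ := count_finite hR hC hm₁ h₁
  obtain ⟨b₂, f₂⟩ := count_finite hR hC hm₂ h₂
  have := hR.prob
  refine ne_top_of_le_ne_top (b := 4 * (3 + 2 * ((nu μ (Fwd l))⁻¹ * C))) ?_ ?_
  · exact ENNReal.mul_ne_top (by simp) (ENNReal.add_ne_top.2 ⟨by simp,
      ENNReal.mul_ne_top (by simp) (ENNReal.mul_ne_top (ENNReal.inv_ne_top.2 hR.pos.ne') hC)⟩)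
  calc ∫⁻ η, trunc l i r η ∂fwdLaw μ l
      ≤ ∫⁻ η, 4 * (3 + (G₁ η ^ 2 + G₂ η ^ 2)) ∂fwdLaw μ l := by
        refine lintegral_mono_ae ?_
        filter_upwards [chain_ae hR, f₁, f₂] with η hc t₁ t₂
        by_cases hr : blkH l η ≤ r
        swap
        · rw [trunc, Set.indicator_of_notMem (by exact hr)]; exact zero_le
        rw [trunc, Set.indicator_of_mem (by exact hr)]
        have hb := straight_bound hi hn (m := r + 1) hc (by push_cast; linarith)
          (fun σ => if σ = 1 then (G₁ η).toReal else (G₂ η).toReal)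
          (fun σ => by split_ifs <;> exact ENNReal.toReal_nonneg)
          (fun σ hσ T g a b c => by
            rcases hσ with rfl | rfl
            · rw [if_pos rfl]; exact hd₁ η t₁ T g a b c
            · rw [if_neg (by norm_num)]; exact hd₂ η t₂ T g a b c)
        rw [if_pos rfl, if_neg (by norm_num)] at hb
        refine le_trans (b := 4 * (G₁ η + G₂ η + 1)) ?_ (mul_le_mul' le_rfl ?_)
        · rw [← ENNReal.ofReal_natCast, ← ENNReal.ofReal_toReal t₁, ← ENNReal.ofReal_toReal t₂,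
            ← ENNReal.ofReal_add ENNReal.toReal_nonneg ENNReal.toReal_nonneg, ← ENNReal.ofReal_one,
            ← ENNReal.ofReal_add (by positivity) zero_le_one, show (4 : ℝ≥0∞) = ENNReal.ofReal 4 by simp,
            ← ENNReal.ofReal_mul (by norm_num)]
          exact ENNReal.ofReal_le_ofReal hb
        · calc G₁ η + G₂ η + 1 ≤ (1 + G₁ η ^ 2) + (1 + G₂ η ^ 2) + 1 :=
                add_le_add (add_le_add (le_one_add_sq _) (le_one_add_sq _)) le_rfl
            _ = _ := by ring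
    _ = 4 * (3 + (∫⁻ η, G₁ η ^ 2 ∂fwdLaw μ l + ∫⁻ η, G₂ η ^ 2 ∂fwdLaw μ l)) := by
        rw [lintegral_const_mul' _ _ (by simp), lintegral_add_left measurable_const,
          lintegral_add_left (hm₁.pow_const 2), lintegral_const, measure_univ, mul_one]
    _ ≤ _ := by
        rw [two_mul]
        exact mul_le_mul' le_rfl (add_le_add le_rfl (add_le_add b₁ b₂))

/-- Large blocks carry little mean height. -/
lemma tail_small (hR : Regen μ l) {ε : ℝ≥0∞} (hε : 0 < ε) :
    ∃ r : ℕ, ∀ n ≥ r, ∫⁻ η, {ζ | (n : ℝ) < blkH l ζ}.indicator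
      (fun ζ => ENNReal.ofReal (blkH l ζ)) η ∂fwdLaw μ l ≤ ε := by
  have hH := measurable_blkH (d := d) hR.measurable_tau
  have h := tendsto_lintegral_of_dominated_convergence (μ := fwdLaw μ l)
    (F := fun n : ℕ => {ζ | (n : ℝ) < blkH l ζ}.indicator fun ζ => ENNReal.ofReal (blkH l ζ))
    (f := fun _ => 0) (fun ζ => ENNReal.ofReal (blkH l ζ))
    (fun n => hH.ennreal_ofReal.indicator (measurableSet_lt measurable_const hH))
    (fun n => Eventually.of_forall fun ζ => Set.indicator_le_self _ _ ζ) hR.mean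
    (Eventually.of_forall fun ζ => tendsto_const_nhds.congr' (by
      filter_upwards [eventually_ge_atTop ⌈blkH l ζ⌉₊] with n hn
      rw [Set.indicator_of_notMem]
      simp only [Set.mem_ofPred_eq, not_lt]
      exact (Nat.le_ceil _).trans (by exact_mod_cast hn)))
  rw [lintegral_zero] at h
  obtain ⟨r, hr⟩ := eventually_atTop.1 (h.eventually (Iic_mem_nhds hε))
  exact ⟨r, fun n hn => hr n hn⟩

/-- The good futures have probability at least one half. -/
lemma good_prob (hμ : Elliptic μ) (hR : Regen μ l) (hM : MaxIneqStmt) {n m : ℕ} {M : ℝ} (hM0 : 0 < M)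
    (hJ : ∫⁻ η, trunc l i n η ∂fwdLaw μ l ≤ ENNReal.ofReal (M / 4))
    (hH : ((m + 1 : ℕ) : ℝ≥0∞) * fwdLaw μ l {η | (n : ℝ) < blkH l η} ≤ 4⁻¹) :
    ∃ G, MeasurableSet G ∧ G ⊆ ConeGood l i M m ∩ Fwd l ∧ nu μ (Fwd l) * 2⁻¹ ≤ nu μ G := by
  have := hR.prob
  have hit : ∀ j, MeasurePreserving ((next l)^[j]) (fwdLaw μ l) (fwdLaw μ l) :=
    fun j => hR.preserving.iterate j
  obtain ⟨N₀, hsub, hN₀, hN0⟩ := exists_measurable_superset_of_null (ae_iff.1 (chain_ae hR))
  set f : (ℕ → Step d) → ℝ := {η | blkH l η ≤ n}.indicator fun η => (sweep l i η : ℝ)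
  have hHm := measurable_blkH (d := d) hR.measurable_tau
  have hfm : Measurable f := (measurable_from_top.comp (measurable_sweep hR.measurable_tau i)).indicator
    (measurableSet_le hHm measurable_const)
  have hf0 : ∀ η, 0 ≤ f η := fun η => Set.indicator_nonneg (fun _ _ => Nat.cast_nonneg _) η
  have hfe : ∀ η, ENNReal.ofReal (f η) = trunc l i n η := fun η => by
    simp only [f, trunc, Set.indicator_apply]
    split_ifs <;> simp
  set B₁ := {η : ℕ → Step d | ∃ k, 1 ≤ k ∧ k ≤ m + 1 ∧ M * (k : ℝ) < ∑ j ∈ Finset.range k, f ((next l)^[j] η)}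
  have hB₁m : MeasurableSet B₁ := by
    have : B₁ = ⋃ k ∈ Finset.Icc 1 (m + 1),
        {η : ℕ → Step d | M * (k : ℝ) < ∑ j ∈ Finset.range k, f ((next l)^[j] η)} := by
      ext η; simp [B₁, and_assoc]
    rw [this]
    exact Finset.measurableSet_biUnion _ fun k _ => measurableSet_lt measurable_const
      (Finset.measurable_sum _ fun j _ => hfm.comp (hit j).measurable)
  have hB₁ : fwdLaw μ l B₁ ≤ 4⁻¹ := by
    refine (hM _ (fwdLaw μ l) (next l) f hR.preserving hfm hf0 (m + 1) M hM0).trans ?_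
    simp only [hfe]
    rw [ENNReal.div_le_iff (by simpa using hM0) ENNReal.ofReal_ne_top]
    refine hJ.trans (le_of_eq ?_)
    rw [show (4 : ℝ≥0∞)⁻¹ = ENNReal.ofReal (1 / 4) by rw [one_div, ENNReal.ofReal_inv_of_pos] <;> simp,
      ← ENNReal.ofReal_mul (by norm_num)]
    congr 1
    ring
  set B₂ := ⋃ j ∈ Finset.range (m + 1), (next l)^[j] ⁻¹' {η : ℕ → Step d | (n : ℝ) < blkH l η}
  have hTm : MeasurableSet {η : ℕ → Step d | (n : ℝ) < blkH l η} := measurableSet_lt measurable_const hHm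
  have hB₂m : MeasurableSet B₂ := Finset.measurableSet_biUnion _ fun j _ => (hit j).measurable hTm
  have hB₂ : fwdLaw μ l B₂ ≤ 4⁻¹ := by
    refine (measure_biUnion_finset_le _ _).trans ((le_of_eq ?_).trans hH)
    rw [Finset.sum_congr rfl fun j _ => (hit j).measure_preimage hTm.nullMeasurableSet]
    simp
  set G := Fwd l \ (N₀ ∪ B₁ ∪ B₂)
  have hGm : MeasurableSet G := measurableSet_fwd.diff ((hN₀.union hB₁m).union hB₂m)
  refine ⟨G, hGm, fun η hη => ⟨⟨?_, fun k hk => ?_⟩, hη.1⟩, ?_⟩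
  · by_contra hc
    exact hη.2 (Or.inl (Or.inl (hsub hc)))
  · rcases Nat.eq_zero_or_pos k with rfl | hk0
    · simp
    · by_contra hc
      refine hη.2 (Or.inl (Or.inr ⟨k, hk0, hk, ?_⟩))
      rw [not_le] at hc
      refine hc.trans_le (le_of_eq ?_)
      push_cast
      refine Finset.sum_congr rfl fun j hj => (Set.indicator_of_mem (show (next l)^[j] η ∈ {ζ | blkH l ζ ≤ n} from ?_)
        fun ζ : ℕ → Step d => (sweep l i ζ : ℝ)).symm
      simp only [Set.mem_ofPred_eq]
      by_contra hh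
      exact hη.2 (Or.inr (Set.mem_biUnion (Finset.mem_range.2 (by have := Finset.mem_range.1 hj; omega))
        (not_le.1 hh)))
  · have hP : fwdLaw μ l Gᶜ ≤ 4⁻¹ + 4⁻¹ := by
      refine le_trans (measure_mono (t := (Fwd l)ᶜ ∪ (N₀ ∪ B₁ ∪ B₂)) fun η hη => ?_) ?_
      · simp only [G, Set.mem_compl_iff, Set.mem_sdiff, not_and, not_not] at hη
        by_cases h : η ∈ Fwd l
        exacts [Or.inr (hη h), Or.inl h]
      · have h0 : fwdLaw μ l (Fwd l)ᶜ = 0 := by
          rw [fwd_apply, Set.compl_inter_self, measure_empty, mul_zero]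
        refine (measure_union_le _ _).trans ?_
        rw [h0, zero_add]
        refine (measure_union_le _ _).trans (add_le_add ((measure_union_le _ _).trans ?_) hB₂)
        rwa [hN0, zero_add]
    have hG2 : (2⁻¹ : ℝ≥0∞) ≤ fwdLaw μ l G := by
      have h4 : (4⁻¹ : ℝ≥0∞) + 4⁻¹ = 2⁻¹ := by
        rw [← two_mul, show (4 : ℝ≥0∞) = 2 * 2 by norm_num,
          ENNReal.mul_inv (Or.inl two_ne_zero) (Or.inl ENNReal.ofNat_ne_top), ← mul_assoc,
          ENNReal.mul_inv_cancel two_ne_zero ENNReal.ofNat_ne_top, one_mul]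
      rw [h4, prob_compl_eq_one_sub hGm] at hP
      have := tsub_le_iff_right.1 hP
      rw [← ENNReal.inv_two_add_inv_two] at this
      exact (ENNReal.add_le_add_iff_left (ENNReal.inv_ne_top.2 two_ne_zero)).1 this
    rw [fwd_apply, Set.inter_eq_left.2 Set.sdiff_subset] at hG2
    calc nu μ (Fwd l) * 2⁻¹ ≤ nu μ (Fwd l) * ((nu μ (Fwd l))⁻¹ * nu μ G) := mul_le_mul' le_rfl hG2
      _ = nu μ G := by rw [← mul_assoc, ENNReal.mul_inv_cancel hR.pos.ne' (nu_fwd_ne_top hμ), one_mul]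

/-- The indicator of a block higher than `k` and `r`. -/
def big (l : Fin d → ℝ) (r k : ℕ) : Pos d → ℝ≥0∞ :=
  {x | (k : ℝ) < lht l x ∧ (r : ℝ) < lht l x}.indicator fun _ => 1

/-- The number of early large blocks. -/
def bigCount (l : Fin d → ℝ) (r n : ℕ) (η : ℕ → Step d) : ℝ≥0∞ :=
  ∑ k ∈ Finset.range (n + 1), big l r k (pos ((next l)^[k] η) (tau l ((next l)^[k] η)))

lemma measurable_big (hR : Regen μ l) (r k : ℕ) :
    Measurable fun η : ℕ → Step d => big l r k (pos η (tau l η)) :=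
  (measurable_of_countable _).comp (measurable_blkEnd hR.measurable_tau)

lemma bigCount_moments (hR : Regen μ l) (r n : ℕ) {e : ℝ≥0∞}
    (he : ∫⁻ η, {ζ | (r : ℝ) < blkH l ζ}.indicator (fun ζ => ENNReal.ofReal (blkH l ζ)) η ∂fwdLaw μ l ≤ e) :
    ∫⁻ η, bigCount l r n η ^ 2 ∂fwdLaw μ l ≤ 2 * e + (2 * e) ^ 2 := by
  set b : ℕ → ℝ≥0∞ := fun k => ∫⁻ η, big l r k (pos η (tau l η)) ∂fwdLaw μ l
  have hb : ∑ k ∈ Finset.range (n + 1), b k ≤ 2 * e := by
    simp only [b]
    rw [← lintegral_finsetSum _ fun k _ => measurable_big hR r k]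
    refine le_trans ?_ (mul_le_mul' le_rfl he)
    rw [← lintegral_const_mul' _ _ (by simp)]
    refine lintegral_mono_ae ?_
    filter_upwards [chain_ae hR] with η hc
    have hH : 1 ≤ blkH l η := hc.one_le 0
    by_cases hr : (r : ℝ) < blkH l η
    · rw [Set.indicator_of_mem (by exact hr)]
      simp only [big, Set.indicator_apply, Set.mem_ofPred_eq]
      rw [Finset.sum_boole]
      refine le_trans (Nat.cast_le.2 (Finset.card_le_card (t := Finset.range ⌈blkH l η⌉₊) fun k hk => ?_)) ?_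
      · exact Finset.mem_range.2 (Nat.lt_ceil.2 (Finset.mem_filter.1 hk).2.1)
      · rw [Finset.card_range, ← ENNReal.ofReal_natCast, show (2 : ℝ≥0∞) = ENNReal.ofReal 2 by simp,
          ← ENNReal.ofReal_mul (by norm_num)]
        refine ENNReal.ofReal_le_ofReal ?_
        have := Nat.ceil_lt_add_one (show 0 ≤ blkH l η by linarith)
        linarith
    · rw [Finset.sum_eq_zero fun k _ => ?_]
      · exact zero_le
      · exact Set.indicator_of_notMem (show pos η (tau l η) ∉ {x : Pos d | (k : ℝ) < lht l x ∧ (r : ℝ) < lht l x}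
          from fun h => hr h.2) _
  have hit := fun k => hR.preserving.iterate k
  have hm : ∀ k, Measurable fun η : ℕ → Step d => big l r k (pos ((next l)^[k] η) (tau l ((next l)^[k] η))) :=
    fun k => (measurable_big hR r k).comp (hit k).measurable
  calc ∫⁻ η, bigCount l r n η ^ 2 ∂fwdLaw μ l
      = ∑ j ∈ Finset.range (n + 1), ∑ k ∈ Finset.range (n + 1), ∫⁻ η,
          big l r j (pos ((next l)^[j] η) (tau l ((next l)^[j] η))) *
          big l r k (pos ((next l)^[k] η) (tau l ((next l)^[k] η))) ∂fwdLaw μ l := by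
        simp only [bigCount, sq, Finset.sum_mul_sum]
        have hmm : ∀ j k, Measurable fun η : ℕ → Step d => big l r j (pos ((next l)^[j] η) (tau l ((next l)^[j] η))) *
            big l r k (pos ((next l)^[k] η) (tau l ((next l)^[k] η))) := fun j k => (hm j).mul (hm k)
        rw [lintegral_finsetSum _ fun j _ => Finset.measurable_sum _ fun k _ => hmm j k]
        exact Finset.sum_congr rfl fun j _ => lintegral_finsetSum _ fun k _ => hmm j k
    _ ≤ ∑ j ∈ Finset.range (n + 1), ∑ k ∈ Finset.range (n + 1), ((if j = k then b j else 0) + b j * b k) := by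
        refine Finset.sum_le_sum fun j _ => Finset.sum_le_sum fun k _ => ?_
        rcases lt_trichotomy j k with h | rfl | h
        · rw [pair_blocks hR _ (measurable_big hR r k) h]
          exact le_add_self
        · rw [if_pos rfl]
          refine le_trans (le_of_eq ?_) le_self_add
          refine Eq.trans (lintegral_congr fun η => ?_) ((hit j).lintegral_comp (measurable_big hR r j))
          simp only [big, Set.indicator_apply]
          split_ifs <;> simp
        · simp only [mul_comm (big l r j _)]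
          rw [pair_blocks hR _ (measurable_big hR r j) h, mul_comm]
          exact le_add_self
    _ ≤ _ := by
        simp only [Finset.sum_add_distrib, ← Finset.mul_sum, ← Finset.sum_mul]
        rw [sq]
        refine add_le_add ?_ (mul_le_mul' hb hb)
        refine le_trans (le_of_eq (Finset.sum_congr rfl fun j hj => ?_)) hb
        rw [Finset.sum_ite_eq, if_pos hj]

/-- The excursion per unit height of a block higher than `k`, `r` and at most `n`. -/
def ratio (l : Fin d → ℝ) (i : Fin d) (r n k : ℕ) : (ℕ → Step d) → ℝ≥0∞ :=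
  {η | (k : ℝ) < blkH l η ∧ (r : ℝ) < blkH l η ∧ blkH l η ≤ n}.indicator
    fun η => ENNReal.ofReal ((sweep l i η : ℝ) / blkH l η)

lemma measurable_ratio (hR : Regen μ l) (r n k : ℕ) : Measurable (ratio (d := d) l i r n k) := by
  have hH := measurable_blkH (d := d) hR.measurable_tau
  exact ((measurable_from_top.comp (measurable_sweep hR.measurable_tau i)).div hH).ennreal_ofReal.indicator
    ((measurableSet_lt measurable_const hH).inter
      ((measurableSet_lt measurable_const hH).inter (measurableSet_le hH measurable_const)))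

/-- High blocks are seen early, with earlier blocks not much higher. -/
lemma early_blocks (hR : Regen μ l) {K : ℝ} (hK0 : 0 < K)
    (hK : 2 * (∫⁻ η, ENNReal.ofReal (blkH l η) ∂fwdLaw μ l).toReal ≤ K) (r n k : ℕ)
    (hfin : ∫⁻ η, ratio l i r n k η ∂fwdLaw μ l ≠ ∞) :
    ∫⁻ η, ratio l i r n k η ∂fwdLaw μ l ≤ 2 * ∫⁻ η, {ζ | ∑ j ∈ Finset.range k,
      blkH l ((next l)^[j] ζ) ≤ K * blkH l ((next l)^[k] ζ)}.indicator
        (fun ζ => ratio l i r n k ((next l)^[k] ζ)) η ∂fwdLaw μ l := by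
  set E := {ζ : ℕ → Step d | ∑ j ∈ Finset.range k, blkH l ((next l)^[j] ζ) ≤ K * blkH l ((next l)^[k] ζ)}
  set L := ∫⁻ η, E.indicator (fun ζ => ratio l i r n k ((next l)^[k] ζ)) η ∂fwdLaw μ l
  set x := ∫⁻ η, ratio l i r n k η ∂fwdLaw μ l
  have hH := measurable_blkH (d := d) hR.measurable_tau
  have hrm := measurable_ratio (i := i) hR r n k
  have hit := fun j => hR.preserving.iterate j
  have hEm : MeasurableSet E := measurableSet_le
    (Finset.measurable_sum _ fun j _ => hH.comp (hit j).measurable)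
    ((hH.comp (hit k).measurable).const_mul K)
  set Ψ : (ℕ → Step d) → ℝ≥0∞ := fun η => ratio l i r n k η * ENNReal.ofReal (1 / (K * blkH l η))
  have hΨm : Measurable Ψ := hrm.mul (measurable_const.div (hH.const_mul K)).ennreal_ofReal
  have h1 : x ≤ L + ∑ j ∈ Finset.range k, ∫⁻ η, ENNReal.ofReal (blkH l ((next l)^[j] η)) *
      Ψ ((next l)^[k] η) ∂fwdLaw μ l := by
    have hjm : ∀ j, Measurable fun η : ℕ → Step d => ENNReal.ofReal (blkH l ((next l)^[j] η)) * Ψ ((next l)^[k] η) :=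
      fun j => (hH.comp (hit j).measurable).ennreal_ofReal.mul (hΨm.comp (hit k).measurable)
    have hLm : Measurable (E.indicator fun ζ => ratio l i r n k ((next l)^[k] ζ)) :=
      (hrm.comp (hit k).measurable).indicator hEm
    rw [← lintegral_finsetSum _ fun j _ => hjm j, ← lintegral_add_left hLm]
    refine le_of_eq_of_le ((hit k).lintegral_comp hrm).symm (lintegral_mono_ae ?_)
    filter_upwards [chain_ae hR] with η hc
    by_cases hE : η ∈ E
    · rw [Set.indicator_of_mem hE]; exact le_self_add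
    · refine le_trans ?_ le_add_self
      simp only [Ψ]
      rw [← Finset.sum_mul, ← ENNReal.ofReal_sum_of_nonneg fun j _ => by linarith [hc.one_le j],
        mul_left_comm, ← ENNReal.ofReal_mul (Finset.sum_nonneg fun j _ => by linarith [hc.one_le j])]
      refine le_mul_of_one_le_right zero_le (ENNReal.one_le_ofReal.2 ?_)
      have := hc.one_le k
      simp only [E, Set.mem_ofPred_eq, not_le] at hE
      rw [mul_one_div, one_le_div (mul_pos hK0 (by linarith))]
      exact hE.le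
  have h2 : ∑ j ∈ Finset.range k, ∫⁻ η, ENNReal.ofReal (blkH l ((next l)^[j] η)) *
      Ψ ((next l)^[k] η) ∂fwdLaw μ l ≤ x / 2 := by
    rw [Finset.sum_congr rfl fun j hj =>
      (show ∫⁻ η, ENNReal.ofReal (blkH l ((next l)^[j] η)) * Ψ ((next l)^[k] η) ∂fwdLaw μ l = _ from
        pair_blocks hR (fun x => ENNReal.ofReal (lht l x)) hΨm (Finset.mem_range.1 hj))]
    rw [Finset.sum_const, Finset.card_range, nsmul_eq_mul, div_eq_mul_inv, mul_comm x, ← mul_assoc]
    change ((k : ℝ≥0∞) * ∫⁻ η, ENNReal.ofReal (blkH l η) ∂fwdLaw μ l) * _ ≤ _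
    rw [← lintegral_const_mul _ hΨm, ← lintegral_const_mul _ hrm]
    refine lintegral_mono_ae ?_
    filter_upwards [chain_ae hR] with η hc
    simp only [Ψ]
    by_cases hk : η ∈ {ζ : ℕ → Step d | (k : ℝ) < blkH l ζ ∧ (r : ℝ) < blkH l ζ ∧ blkH l ζ ≤ n}
    swap
    · simp [ratio, Set.indicator_of_notMem hk]
    rw [mul_comm (ratio l i r n k η), ← mul_assoc]
    refine mul_le_mul' ?_ le_rfl
    have hH1 : 1 ≤ blkH l η := hc.one_le 0
    have hm0 : 0 ≤ (∫⁻ η, ENNReal.ofReal (blkH l η) ∂fwdLaw μ l).toReal := ENNReal.toReal_nonneg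
    rw [← ENNReal.ofReal_toReal hR.mean, ← ENNReal.ofReal_natCast, ← ENNReal.ofReal_mul (Nat.cast_nonneg k),
      ← ENNReal.ofReal_mul (by positivity), show (2 : ℝ≥0∞)⁻¹ = ENNReal.ofReal (1 / 2) by
        rw [one_div, ENNReal.ofReal_inv_of_pos two_pos]; simp]
    refine ENNReal.ofReal_le_ofReal ?_
    rw [mul_one_div, div_le_iff₀ (by positivity)]
    have h3 := mul_le_mul hk.1.le hK (by positivity) (by linarith)
    linarith
  have h3 : x / 2 + x / 2 ≤ L + x / 2 := by
    rw [ENNReal.add_halves]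
    exact h1.trans (add_le_add le_rfl h2)
  have h4 := (ENNReal.add_le_add_iff_right (ENNReal.div_ne_top hfin two_ne_zero)).1 h3
  rwa [ENNReal.div_le_iff (by norm_num) (by norm_num), mul_comm] at h4

/-- The blocks between two heights, in terms of the early large blocks. -/
lemma middle_blocks (hR : Regen μ l) (hn : Norm l e₀) {K M : ℝ} (hK0 : 1 ≤ K)
    (hK : 2 * (∫⁻ η, ENNReal.ofReal (blkH l η) ∂fwdLaw μ l).toReal ≤ K) (hM : 1 ≤ M) {m r n : ℕ}
    (hm : (K + 1) * n ≤ m) (hfin : ∫⁻ η, trunc l i n η ∂fwdLaw μ l ≠ ∞)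
    {G₁ G₂ : (ℕ → Step d) → ℝ≥0∞}
    (hd₁ : ∀ η, G₁ η ≠ ∞ → ∀ (T : ℕ) (g : ℕ → ℝ),
      (∀ a s, a ≤ s → s ≤ T → g a ≤ g s) → (∀ e : Step d, |tilt l i 1 M (vec e)| ≤ g 0) →
      (∀ z s, z ≤ s → s ≤ T → (∀ L < s - z, shift z η ∉ ConeExit l i M m L) →
        tilt l i 1 M (pos η s) - tilt l i 1 M (pos η z) ≤ g s) →
      ∀ s ≤ T, tilt l i 1 M (pos η s) ≤ ((G₁ η).toReal + 1) * (2 * g s))
    (hd₂ : ∀ η, G₂ η ≠ ∞ → ∀ (T : ℕ) (g : ℕ → ℝ),
      (∀ a s, a ≤ s → s ≤ T → g a ≤ g s) → (∀ e : Step d, |tilt l i (-1) M (vec e)| ≤ g 0) →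
      (∀ z s, z ≤ s → s ≤ T → (∀ L < s - z, shift z η ∉ ConeExit l i M m L) →
        tilt l i (-1) M (pos η s) - tilt l i (-1) M (pos η z) ≤ g s) →
      ∀ s ≤ T, tilt l i (-1) M (pos η s) ≤ ((G₂ η).toReal + 1) * (2 * g s))
    (f₁ : ∀ᵐ η ∂fwdLaw μ l, G₁ η ≠ ∞) (f₂ : ∀ᵐ η ∂fwdLaw μ l, G₂ η ≠ ∞) :
    ∫⁻ η, trunc l i n η ∂fwdLaw μ l ≤ ∫⁻ η, trunc l i r η ∂fwdLaw μ l +
      2 * ENNReal.ofReal (8 * M * (K + 2)) * ∫⁻ η, (G₁ η + G₂ η + 1) * bigCount l r n η ∂fwdLaw μ l := by
  have hH := measurable_blkH (d := d) hR.measurable_tau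
  have hrm := fun k => measurable_ratio (i := i) hR r n k
  have hit := fun j => hR.preserving.iterate j
  have hsw := measurable_sweep (d := d) hR.measurable_tau i
  have hrt : ∀ k, ∫⁻ η, ratio l i r n k η ∂fwdLaw μ l ≠ ∞ := fun k => by
    refine ne_top_of_le_ne_top hfin (lintegral_mono_ae ?_)
    filter_upwards [chain_ae hR] with η hc
    by_cases hk : η ∈ {ζ : ℕ → Step d | (k : ℝ) < blkH l ζ ∧ (r : ℝ) < blkH l ζ ∧ blkH l ζ ≤ n}
    · rw [ratio, Set.indicator_of_mem hk, trunc, Set.indicator_of_mem (by exact hk.2.2),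
        ← ENNReal.ofReal_natCast]
      exact ENNReal.ofReal_le_ofReal (div_le_self (Nat.cast_nonneg _) (hc.one_le 0))
    · rw [ratio, Set.indicator_of_notMem hk]; exact zero_le
  have step1 : ∫⁻ η, trunc l i n η ∂fwdLaw μ l ≤ ∫⁻ η, trunc l i r η ∂fwdLaw μ l +
      ∑ k ∈ Finset.range (n + 1), ∫⁻ η, ratio l i r n k η ∂fwdLaw μ l := by
    rw [← lintegral_finsetSum _ fun k _ => hrm k,
      ← lintegral_add_right _ (Finset.measurable_sum _ fun k _ => hrm k)]
    refine lintegral_mono_ae ?_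
    filter_upwards [chain_ae hR] with η hc
    have hH1 : 1 ≤ blkH l η := hc.one_le 0
    by_cases hn' : blkH l η ≤ n
    swap
    · rw [trunc, Set.indicator_of_notMem (by exact hn')]; exact zero_le
    by_cases hr : blkH l η ≤ r
    · simp only [trunc]
      rw [Set.indicator_of_mem (by exact hn'), Set.indicator_of_mem (by exact hr)]
      exact le_self_add
    refine le_trans ?_ le_add_self
    have hceil : ⌈blkH l η⌉₊ ≤ n + 1 := (Nat.ceil_le.2 hn').trans (Nat.le_succ n)
    refine le_trans ?_ (Finset.sum_le_sum_of_subset (Finset.range_subset_range.2 hceil))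
    rw [trunc, Set.indicator_of_mem (by exact hn'), Finset.sum_congr rfl fun k hk =>
      (show ratio l i r n k η = _ from Set.indicator_of_mem
        (show η ∈ {ζ : ℕ → Step d | (k : ℝ) < blkH l ζ ∧ (r : ℝ) < blkH l ζ ∧ blkH l ζ ≤ n} from
          ⟨Nat.lt_ceil.1 (Finset.mem_range.1 hk), not_le.1 hr, hn'⟩)
        (fun ζ => ENNReal.ofReal ((sweep l i ζ : ℝ) / blkH l ζ))),
      Finset.sum_const, Finset.card_range, nsmul_eq_mul, ← ENNReal.ofReal_natCast, ← ENNReal.ofReal_natCast,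
      ← ENNReal.ofReal_mul (Nat.cast_nonneg _)]
    refine ENNReal.ofReal_le_ofReal ?_
    rw [mul_div_assoc', le_div_iff₀ (by linarith), mul_comm]
    exact mul_le_mul_of_nonneg_right (Nat.le_ceil _) (Nat.cast_nonneg _)
  refine step1.trans (add_le_add le_rfl ?_)
  refine (Finset.sum_le_sum fun k _ => early_blocks hR (by linarith) hK r n k (hrt k)).trans ?_
  have hkm' : ∀ k, Measurable ({ζ : ℕ → Step d | ∑ j ∈ Finset.range k, blkH l ((next l)^[j] ζ) ≤
      K * blkH l ((next l)^[k] ζ)}.indicator fun ζ => ratio l i r n k ((next l)^[k] ζ)) := fun k =>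
    ((hrm k).comp (hit k).measurable).indicator (measurableSet_le
      (Finset.measurable_sum _ fun j _ => hH.comp (hit j).measurable) ((hH.comp (hit k).measurable).const_mul K))
  rw [← Finset.mul_sum, mul_assoc, ← lintegral_const_mul' _ _ ENNReal.ofReal_ne_top,
    ← lintegral_finsetSum _ fun k _ => hkm' k]
  refine mul_le_mul' le_rfl (lintegral_mono_ae ?_)
  filter_upwards [chain_ae hR, f₁, f₂] with η hc t₁ t₂
  rw [bigCount, Finset.mul_sum, Finset.mul_sum]
  refine Finset.sum_le_sum fun k _ => Set.indicator_apply_le' (fun hE => ?_) fun _ => zero_le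
  by_cases hk : (next l)^[k] η ∈ {ζ : ℕ → Step d | (k : ℝ) < blkH l ζ ∧ (r : ℝ) < blkH l ζ ∧ blkH l ζ ≤ n}
  swap
  · rw [ratio, Set.indicator_of_notMem hk]; exact zero_le
  rw [ratio, Set.indicator_of_mem hk, big, Set.indicator_of_mem
    (show pos ((next l)^[k] η) (tau l ((next l)^[k] η)) ∈ {x : Pos d | (k : ℝ) < lht l x ∧ (r : ℝ) < lht l x}
      from ⟨hk.1, hk.2.1⟩), mul_one]
  have hH1 : 1 ≤ blkH l ((next l)^[k] η) := hc.one_le k
  have hE' : lh l η (ctime l k η) ≤ K * blkH l ((next l)^[k] η) := by rw [hc.height]; exact hE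
  have hS : lh l η (ctime l (k + 1) η) = lh l η (ctime l k η) + blkH l ((next l)^[k] η) := by
    rw [hc.height, hc.height, Finset.sum_range_succ]
  have hkm : lh l η (ctime l (k + 1) η) ≤ m := by
    rw [hS]
    refine le_trans ?_ hm
    have := mul_le_mul_of_nonneg_left hk.2.2 (show 0 ≤ K + 1 by linarith)
    linarith
  have hb := cone_bound i hn hM hc k hkm (fun σ => if σ = 1 then (G₁ η).toReal else (G₂ η).toReal)
    (fun σ => by split_ifs <;> exact ENNReal.toReal_nonneg)
    (fun σ hσ T g a b c => by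
      rcases hσ with rfl | rfl
      · rw [if_pos rfl]; exact hd₁ η t₁ T g a b c
      · rw [if_neg (by norm_num)]; exact hd₂ η t₂ T g a b c)
  rw [if_pos rfl, if_neg (by norm_num), hS] at hb
  rw [← ENNReal.ofReal_toReal t₁, ← ENNReal.ofReal_toReal t₂,
    ← ENNReal.ofReal_add ENNReal.toReal_nonneg ENNReal.toReal_nonneg, ← ENNReal.ofReal_one,
    ← ENNReal.ofReal_add (by positivity) zero_le_one, ← ENNReal.ofReal_mul (by positivity)]
  refine ENNReal.ofReal_le_ofReal ?_
  rw [div_le_iff₀ (by linarith)]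
  have hG0 : 0 ≤ 8 * M * ((G₁ η).toReal + (G₂ η).toReal + 1) := by positivity
  have := mul_le_mul_of_nonneg_left (show lh l η (ctime l k η) + blkH l ((next l)^[k] η) + 1 ≤
    (K + 2) * blkH l ((next l)^[k] η) by linarith) hG0
  linarith

end Vale.Agent.P147.Dir.Swp

namespace Vale.Agent.P147.Dir

open Swp

variable {d : ℕ} [NeZero d] {μ : Measure (Step d → ℝ)} {l : Fin d → ℝ} {e₀ : Step d}

/-- Module Sweep. -/
theorem sweep_mean (hT : TrialStmt d) (hM : MaxIneqStmt) : SweepStmt μ l e₀ := by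
  intro hμ hn hR i hi
  have := hR.prob
  have := isProbabilityMeasure_nu hμ
  set mH := (∫⁻ η, ENNReal.ofReal (blkH l η) ∂fwdLaw μ l).toReal
  set K := 2 * mH + 1
  have hK1 : 1 ≤ K := by have : 0 ≤ mH := ENNReal.toReal_nonneg; simp only [K]; linarith
  set q := 1 - w μ 1 (fun _ => e₀) * (nu μ (Fwd l) * 2⁻¹)
  have hq : q < 1 := ENNReal.sub_lt_self ENNReal.one_ne_top one_ne_zero
    (mul_ne_zero (w_ne_zero hμ _ _) (mul_ne_zero hR.pos.ne' (by simp)))
  obtain ⟨C, hC, hG⟩ := hT q hq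
  set CG := 32 * ((nu μ (Fwd l))⁻¹ * C) + 4
  have hCG : CG ≠ ∞ := ENNReal.add_ne_top.2
    ⟨ENNReal.mul_ne_top (by simp) (ENNReal.mul_ne_top (ENNReal.inv_ne_top.2 hR.pos.ne') hC), by simp⟩
  have hCG0 : CG ≠ 0 := by simp [CG]
  set ε := ENNReal.ofReal (1 / (512 * (K + 2)))
  have hε : ε ≠ 0 := by simp [ε]; positivity
  set a := ε / 2 / CG
  have ha0 : a ≠ 0 := ENNReal.div_ne_zero.2 ⟨ENNReal.div_ne_zero.2 ⟨hε, by simp⟩, hCG⟩
  have ha : a ≠ ∞ := ENNReal.div_ne_top (ENNReal.div_ne_top ENNReal.ofReal_ne_top (by simp)) hCG0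
  set e := min 1 (ε / 2 * a / 6)
  have he0 : 0 < e := lt_min one_pos (pos_iff_ne_zero.2
    (ENNReal.div_ne_zero.2 ⟨mul_ne_zero (ENNReal.div_ne_zero.2 ⟨hε, by simp⟩) ha0, by simp⟩))
  obtain ⟨r₀, hr₀⟩ := tail_small hR he0
  obtain ⟨n₀, hn₀⟩ := tail_small hR (ε := ENNReal.ofReal (1 / (4 * (K + 6)))) (by simp; positivity)
  set A := ∫⁻ η, trunc l i r₀ η ∂fwdLaw μ l
  have hA : A ≠ ∞ := small_blocks hμ hn hR hT hi r₀
  have hbound : ∀ n : ℕ, n₀ ≤ n → 1 ≤ n →
      ∫⁻ η, trunc l i n η ∂fwdLaw μ l ≤ ENNReal.ofReal (2 * A.toReal + 1) := by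
    intro n hn0 hn1
    have hJ : ∫⁻ η, trunc l i n η ∂fwdLaw μ l ≠ ∞ := small_blocks hμ hn hR hT hi n
    set J := (∫⁻ η, trunc l i n η ∂fwdLaw μ l).toReal
    have hJ0 : 0 ≤ J := ENNReal.toReal_nonneg
    set M := 16 * J + 1
    have hM1 : 1 ≤ M := by simp only [M]; linarith
    set m := ⌈(K + 1) * n⌉₊ + 3
    have hm : (K + 1) * n ≤ m := by
      simp only [m]; push_cast
      linarith [Nat.le_ceil ((K + 1) * (n : ℝ))]
    have hHn : ((m + 1 : ℕ) : ℝ≥0∞) * fwdLaw μ l {η | (n : ℝ) < blkH l η} ≤ 4⁻¹ := by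
      have hn' : (1 : ℝ) ≤ n := by exact_mod_cast hn1
      have h1 : ((m + 1 : ℕ) : ℝ≥0∞) ≤ ENNReal.ofReal ((K + 6) * n) := by
        rw [← ENNReal.ofReal_natCast]
        refine ENNReal.ofReal_le_ofReal ?_
        simp only [m]; push_cast
        linarith [Nat.ceil_lt_add_one (show 0 ≤ (K + 1) * (n : ℝ) by positivity)]
      refine (mul_le_mul' h1 le_rfl).trans ?_
      rw [ENNReal.ofReal_mul (by linarith), mul_assoc]
      refine le_trans (mul_le_mul' le_rfl (le_trans ?_ (hn₀ n hn0))) (le_of_eq ?_)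
      · have hTm : MeasurableSet {η : ℕ → Step d | (n : ℝ) < blkH l η} :=
          measurableSet_lt measurable_const (measurable_blkH hR.measurable_tau)
        rw [← lintegral_indicator_const hTm]
        refine lintegral_mono fun η => ?_
        simp only [Set.indicator_apply]
        split_ifs with h
        exacts [ENNReal.ofReal_le_ofReal (le_of_lt h), le_rfl]
      · rw [← ENNReal.ofReal_mul (by linarith), show (4 : ℝ≥0∞)⁻¹ = ENNReal.ofReal (1 / 4) by
          rw [one_div, ENNReal.ofReal_inv_of_pos] <;> simp]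
        congr 1
        field_simp
    have hJM : ∫⁻ η, trunc l i n η ∂fwdLaw μ l ≤ ENNReal.ofReal (M / 4) := by
      rw [← ENNReal.ofReal_toReal hJ]
      refine ENNReal.ofReal_le_ofReal ?_
      simp only [M]; linarith
    obtain ⟨Gd, hGdm, hGds, hGdp⟩ := good_prob hμ hR hM (by linarith) hJM hHn
    obtain ⟨G₁, hm₁, h₁, hd₁⟩ := hG μ _ _ hμ (cone_trial hμ hn hi (σ := 1) (by simp) (by linarith) m hGdm hGds hGdp)
    obtain ⟨G₂, hm₂, h₂, hd₂⟩ := hG μ _ _ hμ
      (cone_trial hμ hn hi (σ := -1) (by simp) (by linarith) m hGdm hGds hGdp)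
    obtain ⟨b₁, f₁⟩ := count_finite hR hC hm₁ h₁
    obtain ⟨b₂, f₂⟩ := count_finite hR hC hm₂ h₂
    have hmid := middle_blocks (r := r₀) hR hn hK1 (by simp only [K, mH]; linarith) hM1 hm hJ hd₁ hd₂ f₁ f₂
    have hX : ∫⁻ η, (G₁ η + G₂ η + 1) * bigCount l r₀ n η ∂fwdLaw μ l ≤ ε := by
      refine (lintegral_mono fun η => mul_le_sq_add a _ _ ha0 ha).trans ?_
      have hGm : Measurable fun η => (G₁ η + G₂ η + 1) ^ 2 := (((hm₁.add hm₂).add_const 1).pow_const 2)
      rw [lintegral_add_left (hGm.const_mul a), lintegral_const_mul _ hGm]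
      simp only [div_eq_mul_inv]
      rw [lintegral_mul_const' _ _ (ENNReal.inv_ne_top.2 ha0)]
      refine (add_le_add (mul_le_mul' le_rfl (d := CG) ?_) (mul_le_mul' (le_trans (bigCount_moments hR r₀ n (hr₀ r₀ le_rfl))
        (?_ : _ ≤ 6 * e)) le_rfl)).trans ?_
      · refine (lintegral_mono fun η => (add_sq_le' _ _).trans (add_le_add (mul_le_mul' le_rfl (add_sq_le' _ _)) le_rfl)).trans ?_
        rw [lintegral_add_right _ measurable_const, lintegral_const_mul' _ _ (by simp),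
          lintegral_add_left ((hm₁.pow_const 2).const_mul _), lintegral_const_mul' _ _ (by simp),
          lintegral_const_mul' _ _ (by simp), lintegral_const, measure_univ, mul_one, one_pow, mul_one]
        refine le_trans (add_le_add (mul_le_mul' le_rfl (add_le_add (mul_le_mul' le_rfl b₁) (mul_le_mul' le_rfl b₂))) le_rfl)
          (le_of_eq ?_)
        simp only [CG]; ring
      · rw [sq, show (6 : ℝ≥0∞) * e = 2 * e + 4 * (e * 1) by ring]
        refine add_le_add le_rfl (le_trans (le_of_eq ?_) (mul_le_mul' le_rfl (mul_le_mul' le_rfl (show e ≤ 1 from min_le_left _ _))))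
        ring
      · refine (add_le_add (b := ε / 2) (d := ε / 2) (le_of_eq (ENNReal.div_mul_cancel hCG0 hCG)) ?_).trans
          (le_of_eq (ENNReal.add_halves ε))
        refine le_trans (mul_le_mul' (mul_le_mul' le_rfl (show e ≤ ε / 2 * a / 6 from min_le_right _ _)) le_rfl) (le_of_eq ?_)
        rw [ENNReal.mul_div_cancel (by simp) (by simp), mul_assoc, ENNReal.mul_inv_cancel ha0 ha, mul_one]
    have hfinal : ∫⁻ η, trunc l i n η ∂fwdLaw μ l ≤ A + 2 * ENNReal.ofReal (8 * M * (K + 2)) * ε :=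
      hmid.trans (add_le_add le_rfl (mul_le_mul' le_rfl hX))
    simp only [ε] at hfinal
    rw [show (2 : ℝ≥0∞) = ENNReal.ofReal 2 by simp, ← ENNReal.ofReal_mul zero_le_two,
      ← ENNReal.ofReal_mul (by positivity), ← ENNReal.ofReal_toReal hA, ← ENNReal.ofReal_toReal hJ,
      ← ENNReal.ofReal_add ENNReal.toReal_nonneg (by positivity),
      ENNReal.ofReal_le_ofReal_iff (by positivity)] at hfinal
    have e2 : 2 * (8 * M * (K + 2)) * (1 / (512 * (K + 2))) = M / 32 := by field_simp; ring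
    rw [← ENNReal.ofReal_toReal hJ]
    refine ENNReal.ofReal_le_ofReal ?_
    simp only [M] at hfinal e2 ⊢
    linarith
  have hmono : Monotone fun n => trunc l i n := fun a b hab η =>
    Set.indicator_le_indicator_of_subset (fun ζ (hζ : blkH l ζ ≤ (a : ℝ)) =>
      (hζ.trans (by exact_mod_cast hab) : blkH l ζ ≤ (b : ℝ))) (fun _ => zero_le) η
  have hmeas : ∀ n, Measurable (trunc l i n) := fun n =>
    (measurable_from_top.comp (measurable_sweep hR.measurable_tau i)).indicator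
      (measurableSet_le (measurable_blkH hR.measurable_tau) measurable_const)
  have hsup : ∀ η : ℕ → Step d, (sweep l i η : ℝ≥0∞) = ⨆ n, trunc l i n η := fun η => by
    refine le_antisymm (le_iSup_of_le ⌈blkH l η⌉₊ ?_) (iSup_le fun n => Set.indicator_le_self _ _ η)
    rw [trunc, Set.indicator_of_mem (show η ∈ {ζ : ℕ → Step d | blkH l ζ ≤ (⌈blkH l η⌉₊ : ℕ)} from by
      simp only [Set.mem_ofPred_eq]; exact Nat.le_ceil _)]
  rw [lintegral_congr hsup, lintegral_iSup hmeas hmono]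
  refine ne_top_of_le_ne_top (ENNReal.ofReal_ne_top (r := 2 * A.toReal + 1)) (iSup_le fun n => ?_)
  exact le_trans (lintegral_mono (hmono (show n ≤ max (max n n₀) 1 from le_trans (le_max_left _ _) (le_max_left _ _))))
    (hbound _ (le_trans (le_max_right _ _) (le_max_left _ _)) (le_max_right _ _))

end Vale.Agent.P147.Dir
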