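import Vale.Agent.P147.Dir.Defs

/-!
P147: elementary facts on the blocks of a path and on pairs of blocks.
-/

open MeasureTheory Filter
open scoped ENNReal Topology

noncomputable section

namespace Vale.Agent.P147.Dir.Swp

variable {d : ℕ} {l : Fin d → ℝ} {e₀ : Step d}

lemma lht_add (x y : Pos d) : lht l (x + y) = lht l x + lht l y := by
  simp only [lht, Pi.add_apply, Int.cast_add, mul_add, Finset.sum_add_distrib]

@[simp] lemma lh_zero (η : ℕ → Step d) : lh l η 0 = 0 := by simp [lh, lht, pos]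

lemma lh_add (η : ℕ → Step d) (n t : ℕ) : lh l η (n + t) = lh l η n + lh l (shift n η) t := by
  rw [lh, pos_add, lht_add]; rfl

lemma lh_succ (η : ℕ → Step d) (n : ℕ) : lh l η (n + 1) = lh l η n + lht l (vec (η n)) := by
  rw [lh, pos, lht_add]; rfl

lemma pos_i_succ (η : ℕ → Step d) (n : ℕ) (i : Fin d) :
    pos η (n + 1) i = pos η n i + vec (η n) i := rfl

lemma abs_vec_le (e : Step d) (i : Fin d) : |vec e i| ≤ 1 := by
  rcases eq_or_ne i e.1 with rfl | h
  · rcases e with ⟨a, b⟩
    cases b <;> simp [vec]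
  · simp [vec, Pi.single_eq_of_ne h]

lemma measurable_lh (n : ℕ) : Measurable (fun η : ℕ → Step d => lh l η n) :=
  (measurable_of_countable (lht l)).comp (measurable_pos n)

lemma measurableSet_fwd : MeasurableSet (Fwd (d := d) l) := by
  refine MeasurableSet.inter ?_ ?_
  · rw [Set.ofPred_forall]
    exact MeasurableSet.iInter fun t => measurableSet_le measurable_const (measurable_lh t)
  · have : Escape (d := d) l = ⋂ B : ℕ, ⋃ N : ℕ, ⋂ n, ⋂ (_ : N ≤ n),
        {η : ℕ → Step d | (B : ℝ) ≤ lh l η n} := by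
      ext η
      simp only [Escape, Set.mem_ofPred_eq, Set.mem_iInter, Set.mem_iUnion, tendsto_atTop,
        eventually_atTop]
      refine ⟨fun h B => h B, fun h x => ?_⟩
      obtain ⟨N, hN⟩ := h ⌈x⌉₊
      exact ⟨N, fun n hn => (Nat.le_ceil x).trans (hN n hn)⟩
    rw [this]
    exact MeasurableSet.iInter fun B => MeasurableSet.iUnion fun N => MeasurableSet.iInter fun n =>
      MeasurableSet.iInter fun _ => measurableSet_le measurable_const (measurable_lh n)

/-- All regenerations exist. -/
def Chain (l : Fin d → ℝ) (η : ℕ → Step d) : Prop :=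
  η ∈ Fwd l ∧ ∀ k, ∃ t, RegT l ((next l)^[k] η) t

lemma tau_spec {η : ℕ → Step d} (h : ∃ t, RegT l η t) : RegT l η (tau l η) := by
  classical
  rw [tau, dif_pos h]
  exact Nat.find_spec h

variable {η : ℕ → Step d}

lemma next_iterate (η : ℕ → Step d) (k : ℕ) : (next l)^[k] η = shift (ctime l k η) η := by
  induction k with
  | zero => funext t; simp [ctime, shift]
  | succ k ih =>
    rw [Function.iterate_succ_apply', next, ctime, Finset.sum_range_succ, ← ctime]
    generalize tau l ((next l)^[k] η) = τ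
    rw [ih]
    funext t
    simp only [shift, add_assoc]

lemma ctime_succ (η : ℕ → Step d) (k : ℕ) :
    ctime l (k + 1) η = ctime l k η + tau l ((next l)^[k] η) := by
  rw [ctime, Finset.sum_range_succ, ← ctime]

lemma Chain.regT (h : Chain l η) (k : ℕ) : RegT l ((next l)^[k] η) (tau l ((next l)^[k] η)) :=
  tau_spec (h.2 k)

lemma Chain.fwd (h : Chain l η) : ∀ k, (next l)^[k] η ∈ Fwd l
  | 0 => h.1
  | k + 1 => by
    rw [Function.iterate_succ_apply', next]
    exact (h.regT k).2

lemma Chain.one_le (h : Chain l η) (k : ℕ) : 1 ≤ blkH l ((next l)^[k] η) := (h.regT k).1.1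

lemma Chain.height (h : Chain l η) (k : ℕ) :
    lh l η (ctime l k η) = ∑ j ∈ Finset.range k, blkH l ((next l)^[j] η) := by
  induction k with
  | zero => simp [ctime]
  | succ k ih =>
    rw [Finset.sum_range_succ, ← ih, ctime_succ, lh_add, ← next_iterate]
    rfl

lemma Chain.k_le (h : Chain l η) (k : ℕ) : (k : ℝ) ≤ lh l η (ctime l k η) := by
  rw [h.height]
  calc (k : ℝ) = ∑ _j ∈ Finset.range k, (1 : ℝ) := by simp
    _ ≤ _ := Finset.sum_le_sum fun j _ => h.one_le j

lemma Chain.above (h : Chain l η) {k s : ℕ} (hs : ctime l k η ≤ s) :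
    lh l η (ctime l k η) ≤ lh l η s := by
  obtain ⟨t, rfl⟩ := Nat.exists_eq_add_of_le hs
  rw [lh_add, ← next_iterate, le_add_iff_nonneg_right]
  exact (h.fwd k).1 t

lemma Chain.below (h : Chain l η) : ∀ (k s : ℕ), s ≤ ctime l k η →
    lh l η s ≤ lh l η (ctime l k η) := by
  intro k
  induction k with
  | zero =>
    intro s hs
    simp [ctime] at hs
    simp [hs, ctime]
  | succ k ih =>
    intro s hs
    rcases le_or_gt s (ctime l k η) with h1 | h1
    · refine (ih s h1).trans (h.above ?_)
      rw [ctime_succ]; omega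
    · obtain ⟨t, rfl⟩ := Nat.exists_eq_add_of_le h1.le
      rw [ctime_succ, add_le_add_iff_left] at hs
      rw [ctime_succ, lh_add, lh_add, ← next_iterate, add_le_add_iff_left]
      rcases hs.lt_or_eq with h2 | h2
      · exact ((h.regT k).1.2 t h2).le
      · rw [h2]

lemma pos_le_sweep (η : ℕ → Step d) (i : Fin d) {s : ℕ} (hs : s ≤ tau l η) :
    (pos η s i).natAbs ≤ sweep l i η :=
  Finset.le_sup (f := fun s => (pos η s i).natAbs) (Finset.mem_range.2 (Nat.lt_succ_of_le hs))

lemma pos_le_sum (η : ℕ → Step d) (i : Fin d) : ∀ (k s : ℕ), s ≤ ctime l k η →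
    (pos η s i).natAbs ≤ ∑ j ∈ Finset.range k, sweep l i ((next l)^[j] η) := by
  intro k
  induction k with
  | zero =>
    intro s hs
    simp [ctime] at hs
    simp [hs, pos]
  | succ k ih =>
    intro s hs
    rw [Finset.sum_range_succ]
    rcases le_or_gt s (ctime l k η) with h1 | h1
    · exact (ih s h1).trans (Nat.le_add_right _ _)
    · obtain ⟨t, rfl⟩ := Nat.exists_eq_add_of_le h1.le
      rw [ctime_succ, add_le_add_iff_left] at hs
      rw [pos_add, ← next_iterate, Pi.add_apply]
      exact (Int.natAbs_add_le _ _).trans (add_le_add (ih _ le_rfl) (pos_le_sweep _ i hs))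

lemma sweep_le (η : ℕ → Step d) (i : Fin d) (k : ℕ) {B : ℝ} (hB : 0 ≤ B)
    (h : ∀ s ≤ ctime l (k + 1) η, |(pos η s i : ℝ)| ≤ B) :
    (sweep l i ((next l)^[k] η) : ℝ) ≤ 2 * B := by
  have key : sweep l i ((next l)^[k] η) ≤ ⌊2 * B⌋₊ := Finset.sup_le fun t ht => Nat.le_floor ?_
  · exact le_trans (Nat.cast_le.2 key) (Nat.floor_le (by linarith))
  have ht' : t ≤ tau l ((next l)^[k] η) := Nat.lt_succ_iff.1 (Finset.mem_range.1 ht)
  have h1 := h (ctime l k η + t) (by rw [ctime_succ]; omega)
  have h2 := h (ctime l k η) (by rw [ctime_succ]; omega)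
  rw [pos_add, Pi.add_apply, Int.cast_add, ← next_iterate] at h1
  rw [Nat.cast_natAbs, Int.cast_abs]
  have h3 := abs_add_le ((pos η (ctime l k η) i : ℝ) + pos ((next l)^[k] η) t i) (-(pos η (ctime l k η) i : ℝ))
  rw [abs_neg, add_neg_cancel_comm] at h3
  linarith

lemma measurable_blkEnd (ht : Measurable (tau (d := d) l)) :
    Measurable (fun η : ℕ → Step d => pos η (tau l η)) := by
  have h : Measurable (fun r : (ℕ → Step d) × ℕ => pos r.1 r.2) :=
    measurable_from_prod_countable_left fun n => measurable_pos n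
  exact h.comp (measurable_id.prodMk ht)

lemma measurable_blkH (ht : Measurable (tau (d := d) l)) : Measurable (blkH (d := d) l) :=
  (measurable_of_countable (lht l)).comp (measurable_blkEnd ht)

lemma measurable_sweep [NeZero d] (ht : Measurable (tau (d := d) l)) (i : Fin d) :
    Measurable (sweep (d := d) l i) := by
  have h : Measurable (fun r : (ℕ → Step d) × ℕ =>
      (Finset.range (r.2 + 1)).sup fun s => (pos r.1 s i).natAbs) := by
    refine measurable_from_prod_countable_left fun n => ?_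
    exact measurable_of_det (H := n) fun η η' he =>
      Finset.sup_congr rfl fun s hs => by rw [pos_congr fun t ht => he t (by
        have := Finset.mem_range.1 hs; omega)]
  exact h.comp (measurable_id.prodMk ht)

lemma blockDet_end (x : Pos d) : BlockDet l {η : ℕ → Step d | pos η (tau l η) = x} :=
  fun η η' _ _ _ _ ht he h => by
    simp only [Set.mem_ofPred_eq] at h ⊢
    rw [← h, ← ht]
    exact pos_congr fun t ht' => (he t ht').symm

variable [NeZero d] {μ : Measure (Step d → ℝ)}

lemma fwd_apply (S : Set (ℕ → Step d)) :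
    fwdLaw μ l S = (nu μ (Fwd l))⁻¹ * nu μ (S ∩ Fwd l) := by
  rw [fwdLaw, Measure.smul_apply, Measure.restrict_apply' measurableSet_fwd, smul_eq_mul]

lemma lintegral_fwd_le (f : (ℕ → Step d) → ℝ≥0∞) :
    ∫⁻ η, f η ∂fwdLaw μ l ≤ (nu μ (Fwd l))⁻¹ * ∫⁻ η, f η ∂nu μ := by
  rw [fwdLaw, lintegral_smul_measure, smul_eq_mul]
  exact mul_le_mul' le_rfl (setLIntegral_le_lintegral _ _)

/-- A function of the end of the first block is independent of the later blocks. -/
lemma pair_first (hR : Regen μ l) (g : Pos d → ℝ≥0∞) {Φ : (ℕ → Step d) → ℝ≥0∞}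
    (hΦ : Measurable Φ) :
    ∫⁻ η, g (pos η (tau l η)) * Φ (next l η) ∂fwdLaw μ l =
      (∫⁻ η, g (pos η (tau l η)) ∂fwdLaw μ l) * ∫⁻ η, Φ η ∂fwdLaw μ l := by
  have hX := measurable_blkEnd (d := d) hR.measurable_tau
  set X : (ℕ → Step d) → Pos d := fun η => pos η (tau l η)
  have hm : ∀ x, MeasurableSet (X ⁻¹' {x}) := fun x => hX (MeasurableSet.singleton x)
  have hcover : (⋃ x, X ⁻¹' {x}) = Set.univ := by ext; simp
  have hdisj : Pairwise (Function.onFun Disjoint fun x => X ⁻¹' {x}) :=
    fun x y hxy => Disjoint.preimage X (Set.disjoint_singleton.2 hxy)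
  have key : ∀ x, ((fwdLaw μ l).restrict (X ⁻¹' {x})).map (next l) =
      fwdLaw μ l (X ⁻¹' {x}) • fwdLaw μ l := fun x => by
    ext F hF
    rw [Measure.map_apply hR.preserving.measurable hF, Measure.restrict_apply' (hm x),
      Measure.smul_apply, smul_eq_mul, Set.inter_comm,
      hR.product _ _ (hm x) hF (blockDet_end x)]
  have hsplit : ∀ f : (ℕ → Step d) → ℝ≥0∞, ∫⁻ η, f η ∂fwdLaw μ l =
      ∑' x, ∫⁻ η in X ⁻¹' {x}, f η ∂fwdLaw μ l := fun f => by
    rw [← lintegral_iUnion hm hdisj, hcover, setLIntegral_univ]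
  have hr : ∫⁻ η, g (X η) ∂fwdLaw μ l = ∑' x, g x * fwdLaw μ l (X ⁻¹' {x}) := by
    rw [hsplit]
    refine tsum_congr fun x => ?_
    rw [setLIntegral_congr_fun (hm x) (g := fun _ => g x) fun η hη => by
      simp only [Set.mem_preimage, Set.mem_singleton_iff] at hη; simp [hη], setLIntegral_const]
  rw [hr, hsplit, ← ENNReal.tsum_mul_right]
  refine tsum_congr fun x => ?_
  rw [setLIntegral_congr_fun (hm x) (g := fun η => g x * Φ (next l η)) fun η hη => by
      simp only [Set.mem_preimage, Set.mem_singleton_iff, X] at hη; simp [hη],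
    lintegral_const_mul _ (f := fun η => Φ (next l η)) (hΦ.comp hR.preserving.measurable),
    ← lintegral_map hΦ hR.preserving.measurable, key, lintegral_smul_measure, smul_eq_mul, mul_assoc]

/-- Two blocks are independent. -/
lemma pair_blocks (hR : Regen μ l) (g : Pos d → ℝ≥0∞) {Φ : (ℕ → Step d) → ℝ≥0∞}
    (hΦ : Measurable Φ) {j k : ℕ} (hjk : j < k) :
    ∫⁻ η, g (pos ((next l)^[j] η) (tau l ((next l)^[j] η))) * Φ ((next l)^[k] η) ∂fwdLaw μ l =
      (∫⁻ η, g (pos η (tau l η)) ∂fwdLaw μ l) * ∫⁻ η, Φ η ∂fwdLaw μ l := by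
  obtain ⟨r, rfl⟩ := Nat.exists_eq_add_of_le hjk
  have hit := fun n => hR.preserving.iterate n
  have hmg : Measurable fun η : ℕ → Step d => g (pos η (tau l η)) :=
    (measurable_of_countable g).comp (measurable_blkEnd hR.measurable_tau)
  have hmp : Measurable fun η : ℕ → Step d => Φ ((next l)^[r] (next l η)) :=
    hΦ.comp ((hit r).measurable.comp hR.preserving.measurable)
  have e : ∀ η : ℕ → Step d, (next l)^[j.succ + r] η = (next l)^[r] (next l ((next l)^[j] η)) := fun η => by
    rw [show j.succ + r = r + (1 + j) by omega, Function.iterate_add_apply, Function.iterate_add_apply,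
      Function.iterate_one]
  simp only [e]
  refine ((hit j).lintegral_comp (hmg.mul hmp)).trans ?_
  simp only [Pi.mul_apply]
  refine (pair_first hR g (hΦ.comp (hit r).measurable)).trans ?_
  congr 1
  exact (hit r).lintegral_comp hΦ

end Vale.Agent.P147.Dir.Swp
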