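import Vale.Agent.P147.Dir.SweepBlocks

/-!
P147: straight trials and cone trials, and the bounds they give on the blocks.
-/

open MeasureTheory Filter
open scoped ENNReal Topology

noncomputable section

namespace Vale.Agent.P147.Dir.Swp

variable {d : ℕ} {l : Fin d → ℝ} {e₀ : Step d}

/-- A signed coordinate, tilted by a multiple of the height. -/
def tilt (l : Fin d → ℝ) (i : Fin d) (σ M : ℝ) (x : Pos d) : ℝ := σ * (x i : ℝ) + M * lht l x

lemma tilt_add (i : Fin d) (σ M : ℝ) (x y : Pos d) :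
    tilt l i σ M (x + y) = tilt l i σ M x + tilt l i σ M y := by
  simp only [tilt, lht_add, Pi.add_apply, Int.cast_add]
  ring

lemma tilt_vec_le (hn : Norm l e₀) (i : Fin d) {σ M : ℝ} (hσ : |σ| ≤ 1) (hM : 0 ≤ M) (e : Step d) :
    |tilt l i σ M (vec e)| ≤ 1 + M := by
  refine (abs_add_le _ _).trans (add_le_add ?_ ?_)
  · rw [abs_mul]
    refine mul_le_one₀ hσ (abs_nonneg _) ?_
    rw [← Int.cast_abs]
    exact_mod_cast abs_vec_le e i
  · rw [abs_mul, abs_of_nonneg hM]
    exact mul_le_of_le_one_right hM (hn.2 e)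

/-- A straight trial fails at the first step other than `e₀` among the first `m`. -/
def StraightExit (e₀ : Step d) (m L : ℕ) : Set (ℕ → Step d) :=
  {η | L ≤ m ∧ ∃ j, L = j + 1 ∧ (∀ t < j, η t = e₀) ∧ η j ≠ e₀}

/-- A cone trial fails at the first time outside the cone, as long as the height stays below `m`. -/
def ConeExit (l : Fin d → ℝ) (i : Fin d) (M : ℝ) (m L : ℕ) : Set (ℕ → Step d) :=
  {η | (∀ s < L, lh l η s ≤ m ∧ |(pos η s i : ℝ)| ≤ M * lh l η s) ∧
    M * lh l η L < |(pos η L i : ℝ)|}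

lemma lh_congr {η η' : ℕ → Step d} {n : ℕ} (h : ∀ t < n, η t = η' t) : lh l η n = lh l η' n := by
  rw [lh, lh, pos_congr h]

lemma straight_pos {η : ℕ → Step d} {i : Fin d} (hi : i ≠ e₀.1) :
    ∀ s, (∀ t < s, η t = e₀) → pos η s i = 0 := by
  intro s
  induction s with
  | zero => intro _; rfl
  | succ s ih =>
    intro h
    rw [pos_i_succ, ih fun t ht => h t (by omega), h s (by omega), vec, Pi.single_eq_of_ne hi, add_zero]

lemma straight_height (hn : Norm l e₀) {η : ℕ → Step d} :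
    ∀ s, (∀ t < s, η t = e₀) → lh l η s = s := by
  intro s
  induction s with
  | zero => intro _; simp
  | succ s ih =>
    intro h
    rw [lh_succ, ih fun t ht => h t (by omega), h s (by omega), hn.1]
    push_cast
    rfl

variable [NeZero d] {μ : Measure (Step d → ℝ)}

/-- The failure probability of a straight trial. -/
lemma straight_q (hμ : Elliptic μ) (e₀ : Step d) (m : ℕ) : 1 - w μ m (fun _ => e₀) < 1 :=
  ENNReal.sub_lt_self ENNReal.one_ne_top one_ne_zero (w_ne_zero hμ _ _)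

lemma straight_trial (hμ : Elliptic μ) {i : Fin d} (hi : i ≠ e₀.1) (σ : ℝ) (m : ℕ) :
    Trial μ (tilt l i σ 0) (StraightExit e₀ m) (1 - w μ m (fun _ => e₀)) where
  add := tilt_add i σ 0
  det L η η' h := by
    rintro ⟨hL, j, rfl, h1, h2⟩
    exact ⟨hL, j, rfl, fun t ht => (h t (by omega)) ▸ h1 t ht, (h j (by omega)) ▸ h2⟩
  fresh L η := by
    rintro ⟨-, j, rfl, h1, -⟩ s hs
    simp [tilt, straight_pos hi s fun t ht => h1 t (by omega)]
  disj L L' hne := Set.disjoint_left.2 fun η => by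
    rintro ⟨-, j, rfl, h1, h2⟩ ⟨-, j', rfl, h1', h2'⟩
    rcases lt_trichotomy j j' with h | h | h
    exacts [h2 (h1' j h), hne (by rw [h]), h2' (h1 j' h)]
  total := by
    have := isProbabilityMeasure_nu hμ
    have hdet : ∀ L, DetBy L (StraightExit e₀ m L) := fun L η η' h => by
      rintro ⟨hL, j, rfl, h1, h2⟩
      exact ⟨hL, j, rfl, fun t ht => (h t (by omega)) ▸ h1 t ht, (h j (by omega)) ▸ h2⟩
    rw [← measure_iUnion (fun L L' hne => Set.disjoint_left.2 fun η => by
      rintro ⟨-, j, rfl, h1, h2⟩ ⟨-, j', rfl, h1', h2'⟩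
      rcases lt_trichotomy j j' with h | h | h
      exacts [h2 (h1' j h), hne (by rw [h]), h2' (h1 j' h)]) fun L => (hdet L).measurableSet,
      w, ← prob_compl_eq_one_sub (measurableSet_cyl _ _)]
    refine measure_mono fun η hη hcyl => ?_
    obtain ⟨L, hL, j, rfl, -, h2⟩ := Set.mem_iUnion.1 hη
    exact h2 (hcyl j (by omega))

/-- Without a completed failure a straight trial moves by at most one step. -/
lemma straight_step (hn : Norm l e₀) {i : Fin d} (hi : i ≠ e₀.1) {σ : ℝ} (hσ : |σ| ≤ 1) {m : ℕ}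
    {η : ℕ → Step d} {z s : ℕ} (hzs : z ≤ s) (hh : ∀ t ≤ s, 0 ≤ lh l η t ∧ lh l η t < m)
    (hno : ∀ L < s - z, shift z η ∉ StraightExit e₀ m L) :
    tilt l i σ 0 (pos η s) - tilt l i σ 0 (pos η z) ≤ 1 := by
  have hstr : ∀ t, t + 1 < s - z → shift z η t = e₀ := by
    intro t
    induction t using Nat.strong_induction_on with
    | _ t ih =>
      intro ht
      by_contra hne
      have h1 := straight_height hn (η := shift z η) t fun r hr => ih r hr (by omega)
      have h2 := lh_add (l := l) η z t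
      have h3 := (hh z hzs).1
      have h4 := (hh (z + t) (by omega)).2
      have : (t : ℝ) < m := by linarith
      have : t < m := by exact_mod_cast this
      exact hno (t + 1) ht ⟨this, t, rfl, fun r hr => ih r hr (by omega), hne⟩
  obtain ⟨r, rfl⟩ := Nat.exists_eq_add_of_le hzs
  rw [pos_add, tilt_add, add_sub_cancel_left]
  rcases r with _ | r
  · simp [tilt, pos]
  · have h0 := straight_pos hi (η := shift z η) r fun t ht => hstr t (by omega)
    have h := tilt_vec_le (σ := σ) hn i hσ le_rfl (shift z η r)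
    rw [pos, tilt_add]
    simp only [tilt, zero_mul, add_zero, h0, Int.cast_zero, mul_zero, zero_add] at h ⊢
    exact (le_abs_self _).trans h

lemma cone_det (i : Fin d) (M : ℝ) (m L : ℕ) : DetBy L (ConeExit l i M m L) := by
  rintro η η' h ⟨h1, h2⟩
  refine ⟨fun s hs => ?_, ?_⟩
  · rw [← pos_congr fun t ht => h t (by omega), ← lh_congr fun t ht => h t (by omega)]
    exact h1 s hs
  · rw [← pos_congr h, ← lh_congr h]
    exact h2

lemma cone_disj (i : Fin d) (M : ℝ) (m : ℕ) :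
    Pairwise (Function.onFun Disjoint (ConeExit (d := d) l i M m)) :=
  fun L L' hne => Set.disjoint_left.2 fun η h h' => by
    rcases lt_or_gt_of_ne hne with hlt | hlt
    · exact absurd (h'.1 L hlt).2 (not_le.2 h.2)
    · exact absurd (h.1 L' hlt).2 (not_le.2 h'.2)

/-- Futures inside the cone: the blocks are few enough and small on average. -/
def ConeGood (l : Fin d → ℝ) (i : Fin d) (M : ℝ) (m : ℕ) : Set (ℕ → Step d) :=
  {η | Chain l η ∧ ∀ k, k ≤ m + 1 → ((∑ j ∈ Finset.range k, sweep l i ((next l)^[j] η) : ℕ) : ℝ) ≤ M * k}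

lemma cone_no_exit (hn : Norm l e₀) {i : Fin d} (hi : i ≠ e₀.1) {M : ℝ} (hM : 0 ≤ M) {m : ℕ}
    {η : ℕ → Step d} (h0 : η 0 = e₀) (hg : shift 1 η ∈ ConeGood l i M m) (L : ℕ) :
    η ∉ ConeExit l i M m L := by
  classical
  rintro ⟨h1, h2⟩
  rcases L with _ | s
  · simp [pos] at h2
  set ζ := shift 1 η
  obtain ⟨hc, hsum⟩ := hg
  have hh : ∀ t, lh l η (t + 1) = 1 + lh l ζ t := fun t => by
    rw [add_comm t 1, lh_add, lh_succ, lh_zero, h0, hn.1, zero_add]
  have hp : ∀ t, pos η (t + 1) i = pos ζ t i := fun t => by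
    rw [add_comm t 1, pos_add, Pi.add_apply, pos_i_succ, h0, vec, Pi.single_eq_of_ne hi]
    simp [pos, ζ]
  have hs : s ≤ ctime l (m + 1) ζ := by
    by_contra hcon
    push Not at hcon
    obtain ⟨r, rfl⟩ : ∃ r, s = r + 1 := ⟨s - 1, by omega⟩
    have a1 := (h1 (r + 1) (by omega)).1
    have a2 := hc.k_le (m + 1)
    have a3 := hc.above (show ctime l (m + 1) ζ ≤ r by omega)
    rw [hh] at a1
    push_cast at a2
    linarith
  rw [hh, hp] at h2
  have hex : ∃ k, s ≤ ctime l k ζ := ⟨m + 1, hs⟩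
  have hk : Nat.find hex ≤ m + 1 := Nat.find_le hs
  have hks : ((Nat.find hex : ℕ) : ℝ) ≤ 1 + lh l ζ s := by
    rcases Nat.eq_zero_or_eq_succ_pred (Nat.find hex) with h | h
    · rw [h]
      have := hc.1.1 s
      push_cast
      linarith
    · have hlt : ctime l (Nat.find hex - 1) ζ < s := not_le.1 (Nat.find_min hex (by omega))
      have a2 := hc.k_le (Nat.find hex - 1)
      have a3 := hc.above hlt.le
      rw [Nat.cast_sub (by omega), Nat.cast_one] at a2
      linarith
  have a1 : |(pos ζ s i : ℝ)| ≤ M * (Nat.find hex : ℕ) := by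
    refine le_trans ?_ (hsum _ hk)
    rw [← Int.cast_abs, ← Nat.cast_natAbs]
    exact_mod_cast pos_le_sum ζ i _ s (Nat.find_spec hex)
  have a2 := mul_le_mul_of_nonneg_left hks hM
  linarith

/-- The cone trial, given the probability of the good futures. -/
lemma cone_trial (hμ : Elliptic μ) (hn : Norm l e₀) {i : Fin d} (hi : i ≠ e₀.1) {σ M : ℝ}
    (hσ : |σ| ≤ 1) (hM : 0 ≤ M) (m : ℕ) {p : ℝ≥0∞} {G : Set (ℕ → Step d)}
    (hGm : MeasurableSet G) (hGs : G ⊆ ConeGood l i M m ∩ Fwd l) (hp : p ≤ nu μ G) :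
    Trial μ (tilt l i σ M) (ConeExit l i M m) (1 - w μ 1 (fun _ => e₀) * p) where
  add := tilt_add i σ M
  det := cone_det i M m
  fresh L η h s hs := by
    have h1 := (h.1 s hs).2
    have h2 : |σ * (pos η s i : ℝ)| ≤ M * lh l η s := by
      rw [abs_mul]
      exact le_trans (mul_le_of_le_one_left (abs_nonneg _) hσ) h1
    have := (abs_le.1 h2).1
    rw [tilt]
    change 0 ≤ _ + M * lh l η s
    linarith
  disj := cone_disj i M m
  total := by
    have := isProbabilityMeasure_nu hμ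
    rw [← measure_iUnion (cone_disj i M m) fun L => (cone_det i M m L).measurableSet]
    set A : Set (Pos d) := {x | 0 ≤ lht l x}
    have hG : G ∩ Stay A = G := Set.inter_eq_left.2 fun η hη => (hGs hη).2.1
    have hA : ∀ ξ ∈ cyl 1 (fun _ => e₀), ∀ t < 1, pos ξ t - pos ξ 1 ∉ A := fun ξ hξ t ht hmem => by
      obtain rfl : t = 0 := by omega
      have h1 : lh l ξ 1 = 1 := by rw [lh_succ, lh_zero, hξ 0 (by omega), hn.1, zero_add]
      have h2 : (0 : ℝ) ≤ lht l (pos ξ 0 - pos ξ 1) := hmem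
      have h3 := lht_add (l := l) (pos ξ 0 - pos ξ 1) (pos ξ 1)
      rw [sub_add_cancel] at h3
      change lh l ξ 0 = _ + lh l ξ 1 at h3
      rw [lh_zero] at h3
      linarith
    have hS := split hμ (detBy_cyl le_rfl (fun _ => e₀)) hA hGm
    rw [hG] at hS
    set S := cyl 1 (fun _ => e₀) ∩ shift 1 ⁻¹' G
    have hSm : MeasurableSet S := (measurableSet_cyl _ _).inter (measurable_shift 1 hGm)
    refine le_trans (measure_mono (t := Sᶜ) fun η hη hS' => ?_) ?_
    · obtain ⟨L, hL⟩ := Set.mem_iUnion.1 hη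
      exact cone_no_exit hn hi hM (hS'.1 0 (by omega)) (hGs hS'.2).1 L hL
    · rw [prob_compl_eq_one_sub hSm, hS]
      exact tsub_le_tsub_left (mul_le_mul' le_rfl hp) _

/-- Without a completed failure a cone trial moves little. -/
lemma cone_step (hn : Norm l e₀) (i : Fin d) {σ M B : ℝ} (hσ : |σ| ≤ 1) (hM : 1 ≤ M) {m : ℕ}
    (hB : B ≤ m) {η : ℕ → Step d} {z s : ℕ} (hzs : z ≤ s) (hh : ∀ t ≤ s, 0 ≤ lh l η t ∧ lh l η t ≤ B)
    (hno : ∀ L < s - z, shift z η ∉ ConeExit l i M m L) :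
    tilt l i σ M (pos η s) - tilt l i σ M (pos η z) ≤ 2 * M * (B + 1) := by
  have hz := (hh z hzs).1
  have hlh : ∀ t, z + t ≤ s → lh l (shift z η) t ≤ B := fun t ht => by
    have := lh_add (l := l) η z t
    have := (hh (z + t) ht).2
    linarith
  have hin : ∀ t, t < s - z → |(pos (shift z η) t i : ℝ)| ≤ M * lh l (shift z η) t := by
    intro t
    induction t using Nat.strong_induction_on with
    | _ t ih =>
      intro ht
      by_contra hcon
      exact hno t ht ⟨fun r hr => ⟨(hlh r (by omega)).trans hB, ih r hr (by omega)⟩, not_le.1 hcon⟩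
  obtain ⟨r, rfl⟩ := Nat.exists_eq_add_of_le hzs
  have hB0 : 0 ≤ B := hz.trans (hh z hzs).2
  rw [pos_add, tilt_add, add_sub_cancel_left]
  rcases r with _ | r
  · simp [tilt, pos, lht]
    positivity
  · have a1 := hin r (by omega)
    have a2 : σ * (pos (shift z η) r i : ℝ) ≤ M * lh l (shift z η) r := by
      refine le_trans (le_abs_self _) ?_
      rw [abs_mul]
      exact le_trans (mul_le_of_le_one_left (abs_nonneg _) hσ) a1
    have a3 := mul_le_mul_of_nonneg_left (hlh r (by omega)) (show 0 ≤ M by linarith)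
    have a4 := (abs_le.1 (tilt_vec_le (σ := σ) hn i hσ (show 0 ≤ M by linarith) (shift z η r))).2
    rw [pos, tilt_add]
    change σ * (pos (shift z η) r i : ℝ) + M * lh l (shift z η) r + _ ≤ _
    linarith

/-- Finite counts bound every block. -/
lemma straight_bound {i : Fin d} (hi : i ≠ e₀.1) (hn : Norm l e₀) {m : ℕ} {η : ℕ → Step d}
    (hc : Chain l η) (hm : blkH l η < m) (G : ℝ → ℝ) (hG : ∀ σ, 0 ≤ G σ)
    (hT : ∀ σ : ℝ, (σ = 1 ∨ σ = -1) → ∀ (T : ℕ) (g : ℕ → ℝ),
      (∀ r s, r ≤ s → s ≤ T → g r ≤ g s) → (∀ e : Step d, |tilt l i σ 0 (vec e)| ≤ g 0) →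
      (∀ z s, z ≤ s → s ≤ T → (∀ L < s - z, shift z η ∉ StraightExit e₀ m L) →
        tilt l i σ 0 (pos η s) - tilt l i σ 0 (pos η z) ≤ g s) →
      ∀ s ≤ T, tilt l i σ 0 (pos η s) ≤ (G σ + 1) * (2 * g s)) :
    (sweep l i η : ℝ) ≤ 4 * (G 1 + G (-1) + 1) := by
  have hh : ∀ t ≤ tau l η, 0 ≤ lh l η t ∧ lh l η t < m := fun t ht => by
    refine ⟨hc.1.1 t, lt_of_le_of_lt ?_ hm⟩
    have := hc.below 1 t (by simpa [ctime] using ht)
    simpa [ctime, blkH] using this
  have hb : ∀ σ : ℝ, (σ = 1 ∨ σ = -1) → ∀ s ≤ tau l η, σ * (pos η s i : ℝ) ≤ (G σ + 1) * 2 := by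
    intro σ hσ s hs
    have hσ' : |σ| ≤ 1 := by rcases hσ with rfl | rfl <;> simp
    have := hT σ hσ (tau l η) (fun _ => 1) (fun _ _ _ _ => le_rfl)
      (fun e => (tilt_vec_le hn i hσ' le_rfl e).trans (by simp))
      (fun z s hzs hs hno => straight_step hn hi hσ' hzs (fun t ht => hh t (ht.trans hs)) hno) s hs
    simpa [tilt] using this
  have := sweep_le η i 0 (B := 2 * (G 1 + G (-1) + 1)) (by linarith [hG 1, hG (-1)]) fun s hs => by
    have hs' : s ≤ tau l η := by simpa [ctime] using hs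
    have h1 := hb 1 (Or.inl rfl) s hs'
    have h2 := hb (-1) (Or.inr rfl) s hs'
    rw [abs_le]
    constructor <;> linarith [hG 1, hG (-1)]
  simp only [Function.iterate_zero, id] at this
  linarith

/-- Finite counts bound every block below the horizon. -/
lemma cone_bound (i : Fin d) (hn : Norm l e₀) {m : ℕ} {M : ℝ} (hM : 1 ≤ M) {η : ℕ → Step d}
    (hc : Chain l η) (k : ℕ) (hk : lh l η (ctime l (k + 1) η) ≤ m) (G : ℝ → ℝ) (hG : ∀ σ, 0 ≤ G σ)
    (hT : ∀ σ : ℝ, (σ = 1 ∨ σ = -1) → ∀ (T : ℕ) (g : ℕ → ℝ),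
      (∀ r s, r ≤ s → s ≤ T → g r ≤ g s) → (∀ e : Step d, |tilt l i σ M (vec e)| ≤ g 0) →
      (∀ z s, z ≤ s → s ≤ T → (∀ L < s - z, shift z η ∉ ConeExit l i M m L) →
        tilt l i σ M (pos η s) - tilt l i σ M (pos η z) ≤ g s) →
      ∀ s ≤ T, tilt l i σ M (pos η s) ≤ (G σ + 1) * (2 * g s)) :
    (sweep l i ((next l)^[k] η) : ℝ) ≤
      8 * M * (lh l η (ctime l (k + 1) η) + 1) * (G 1 + G (-1) + 1) := by
  set T := ctime l (k + 1) η
  set B := lh l η T
  have hh : ∀ t ≤ T, 0 ≤ lh l η t ∧ lh l η t ≤ B := fun t ht => ⟨hc.1.1 t, hc.below _ t ht⟩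
  have hB0 : 0 ≤ B := hc.1.1 T
  have hb : ∀ σ : ℝ, (σ = 1 ∨ σ = -1) → ∀ s ≤ T,
      σ * (pos η s i : ℝ) ≤ (G σ + 1) * (4 * M * (B + 1)) := by
    intro σ hσ s hs
    have hσ' : |σ| ≤ 1 := by rcases hσ with rfl | rfl <;> simp
    have h := hT σ hσ T (fun _ => 2 * M * (B + 1)) (fun _ _ _ _ => le_rfl)
      (fun e => (tilt_vec_le hn i hσ' (by linarith) e).trans (by nlinarith))
      (fun z s hzs hs hno => cone_step hn i hσ' hM hk hzs (fun t ht => hh t (ht.trans hs)) hno) s hs
    have h' : 0 ≤ M * lht l (pos η s) := mul_nonneg (by linarith) (hh s hs).1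
    rw [tilt] at h
    linarith
  have hMB : 0 ≤ M * (B + 1) := by positivity
  have := sweep_le η i k (B := 4 * M * (B + 1) * (G 1 + G (-1) + 1))
    (mul_nonneg (by positivity) (by linarith [hG 1, hG (-1)])) fun s hs => by
    have h1 := hb 1 (Or.inl rfl) s hs
    have h2 := hb (-1) (Or.inr rfl) s hs
    have := mul_nonneg hMB (hG 1)
    have := mul_nonneg hMB (hG (-1))
    rw [abs_le]
    constructor <;> linarith
  linarith

end Vale.Agent.P147.Dir.Swp
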