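import Vale.Agent.P147.Dir.Defs

/-!
P147: signed coordinate permutations preserving the row law act on the directions of failure.
-/

open MeasureTheory Filter
open scoped ENNReal Topology

noncomputable section

namespace Vale.Agent.P147.Dir

variable {d : ℕ}

/-- The action of a signed coordinate permutation on steps. -/
def stepMap (g : Equiv.Perm (Fin d) × (Fin d → Bool)) (e : Step d) : Step d :=
  (g.1 e.1, xor e.2 (g.2 e.1))

/-- The action of a signed coordinate permutation on directions. -/
def pull (g : Equiv.Perm (Fin d) × (Fin d → Bool)) (v : Fin d → ℝ) : Fin d → ℝ :=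
  fun i => if g.2 i then -v (g.1 i) else v (g.1 i)

namespace SymPf

variable (g : Equiv.Perm (Fin d) × (Fin d → Bool))

/-- The action on sites. -/
def siteMap (x : Pos d) : Pos d :=
  fun j => if g.2 (g.1.symm j) then -x (g.1.symm j) else x (g.1.symm j)

lemma siteMap_zero : siteMap g 0 = 0 := by funext j; simp [siteMap]

lemma siteMap_add (x y : Pos d) : siteMap g (x + y) = siteMap g x + siteMap g y := by
  funext j
  simp only [siteMap, Pi.add_apply]
  split <;> ring

lemma siteMap_vec (e : Step d) : siteMap g (vec e) = vec (stepMap g e) := by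
  funext j
  obtain ⟨i, b⟩ := e
  by_cases hj : j = g.1 i
  · subst hj
    cases b <;> cases hgi : g.2 i <;> simp [siteMap, vec, stepMap, hgi]
  · have h' : g.1.symm j ≠ i := fun h => hj (by rw [← h, Equiv.apply_symm_apply])
    simp [siteMap, vec, stepMap, hj, h']

lemma siteMap_injective : Function.Injective (siteMap g) := by
  intro x y h
  funext i
  have := congrFun h (g.1 i)
  simp only [siteMap, Equiv.symm_apply_apply] at this
  split at this <;> omega

lemma pos_comp (η : ℕ → Step d) (n : ℕ) :
    pos (fun t => stepMap g (η t)) n = siteMap g (pos η n) := by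
  induction n with
  | zero => exact (siteMap_zero g).symm
  | succ n ih => rw [pos, pos, ih, siteMap_add, siteMap_vec]

lemma lht_siteMap (l : Fin d → ℝ) (x : Pos d) : lht l (siteMap g x) = lht (pull g l) x := by
  rw [lht, lht, ← Equiv.sum_comp g.1]
  refine Finset.sum_congr rfl fun i _ => ?_
  simp only [siteMap, pull, Equiv.symm_apply_apply]
  split <;> push_cast <;> ring

lemma times_comp (η : ℕ → Step d) (t : ℕ) :
    times t (fun s => stepMap g (η s)) (pos (fun s => stepMap g (η s)) t) =
      times t η (pos η t) := by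
  ext s
  simp only [times, Finset.mem_filter, pos_comp, (siteMap_injective g).eq_iff]

lemma dot_pull (a b : Fin d → ℝ) : ∑ i, pull g a i * pull g b i = ∑ i, a i * b i := by
  rw [← Equiv.sum_comp g.1 fun i => a i * b i]
  refine Finset.sum_congr rfl fun i _ => ?_
  simp only [pull]
  split <;> ring

lemma pull_neg (a : Fin d → ℝ) : pull g (-a) = -pull g a := by
  funext i
  simp only [pull, Pi.neg_apply]
  split <;> ring

lemma pull_surjective : Function.Surjective (pull g) := by
  intro m
  refine ⟨fun j => if g.2 (g.1.symm j) then -m (g.1.symm j) else m (g.1.symm j), ?_⟩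
  funext i
  cases hgi : g.2 i <;> simp [pull, hgi]

end SymPf

open SymPf

variable [NeZero d] {μ : Measure (Step d → ℝ)} {g : Equiv.Perm (Fin d) × (Fin d → Bool)}

/-- The path law is invariant under a symmetry of the row law. -/
theorem map_nu_stepMap (hμ : Elliptic μ) (hg : μ.map (fun p e => p (stepMap g e)) = μ) :
    (nu μ).map (fun η t => stepMap g (η t)) = nu μ := by
  have := isProbabilityMeasure_nu hμ
  have hm : Measurable (fun (η : ℕ → Step d) t => stepMap g (η t)) :=
    measurable_pi_lambda _ fun t => (measurable_of_countable (stepMap g)).comp (measurable_pi_apply t)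
  have := Measure.isProbabilityMeasure_map (μ := nu μ) hm.aemeasurable
  refine ext_cyl fun n ξ => ?_
  set ζ : ℕ → Step d := fun t =>
    (g.1.symm (ξ t).1, xor (ξ t).2 (g.2 (g.1.symm (ξ t).1))) with hζ
  have hξ : (fun t => stepMap g (ζ t)) = ξ := by
    funext t
    simp [hζ, stepMap]
  have hinj : Function.Injective (stepMap g) := by
    rintro ⟨i, b⟩ ⟨i', b'⟩ h
    simp only [stepMap, Prod.mk.injEq, EmbeddingLike.apply_eq_iff_eq] at h
    obtain ⟨rfl, h⟩ := h
    cases b <;> cases b' <;> cases hgi : g.2 i <;> simp_all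
  have hpre : (fun (η : ℕ → Step d) t => stepMap g (η t)) ⁻¹' cyl n ξ = cyl n ζ := by
    ext η
    simp only [Set.mem_preimage, cyl, Set.mem_ofPred_eq, ← hξ]
    exact forall₂_congr fun t _ => hinj.eq_iff
  rw [Measure.map_apply hm (measurableSet_cyl n ξ), hpre]
  change w μ n ζ = w μ n ξ
  have hMo : ∀ T : Finset ℕ, Mo μ T ξ = Mo μ T ζ := fun T => by
    conv_rhs => rw [Mo, ← hg, lintegral_map (by fun_prop) (by fun_prop)]
    rw [Mo, ← hξ]
  rw [w_eq_prod hμ, w_eq_prod hμ]
  refine Finset.prod_congr rfl fun t _ => ?_
  have ht : times t ξ (pos ξ t) = times t ζ (pos ζ t) := by rw [← hξ, times_comp]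
  rw [Rr, Rr, hMo, hMo, ht]

/-- Escape probabilities are invariant under a symmetry of the row law. -/
theorem nu_escape_pull (hμ : Elliptic μ) (hg : μ.map (fun p e => p (stepMap g e)) = μ)
    (l : Fin d → ℝ) : nu μ (Escape (pull g l)) = nu μ (Escape l) := by
  have hm : Measurable (fun (η : ℕ → Step d) t => stepMap g (η t)) :=
    measurable_pi_lambda _ fun t =>
      (measurable_of_countable (stepMap g)).comp (measurable_pi_apply t)
  have hmeas : MeasurableSet (Escape (d := d) l) :=
    measurableSet_tendsto atTop fun n =>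
      (measurable_of_countable (lht l)).comp (measurable_pos n)
  conv_rhs => rw [← map_nu_stepMap hμ hg, Measure.map_apply hm hmeas]
  congr 1
  ext η
  have h : lh (pull g l) η = lh l (fun t => stepMap g (η t)) := by
    funext n
    rw [lh, lh, pos_comp, lht_siteMap]
  simp only [Escape, Set.mem_preimage, Set.mem_ofPred_eq, h]

/-- Failure directions are invariant under a symmetry of the row law. -/
theorem fails_pull (hμ : Elliptic μ) (hg : μ.map (fun p e => p (stepMap g e)) = μ)
    (l : Fin d → ℝ) : Fails μ (pull g l) ↔ Fails μ l := by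
  rw [Fails, Fails, ← pull_neg, nu_escape_pull hμ hg, nu_escape_pull hμ hg]

/-- A symmetry of the row law fixes the axis of the two asymptotic directions. -/
theorem pull_fixed (hμ : Elliptic μ) (hg : μ.map (fun p e => p (stepMap g e)) = μ)
    {v : Fin d → ℝ} (h : ∀ l' : Fin d → ℝ, Fails μ l' ↔ ∑ i, l' i * v i ≠ 0) :
    pull g v = v ∨ pull g v = -v := by
  set v' := pull g v with hv'
  have hiff : ∀ m : Fin d → ℝ, ∑ i, m i * v i = 0 → ∑ i, m i * v' i = 0 := by
    intro m hm
    obtain ⟨a, rfl⟩ := pull_surjective g m
    rw [hv', dot_pull]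
    by_contra ha
    exact ((h _).mp ((fails_pull hμ hg a).mpr ((h a).mpr ha))) hm
  have hsq : ∑ i, v' i * v' i = ∑ i, v i * v i := dot_pull g v v
  by_cases hv : ∑ i, v i * v i = 0
  · have h0 : ∀ i, v i = 0 := fun i => mul_self_eq_zero.mp
      ((Finset.sum_eq_zero_iff_of_nonneg fun i _ => mul_self_nonneg (v i)).mp hv i
        (Finset.mem_univ i))
    left
    funext i
    simp [hv', pull, h0]
  set c := (∑ i, v' i * v i) / ∑ i, v i * v i with hc
  set m : Fin d → ℝ := fun i => v' i - c * v i with hmdef
  have hm : ∑ i, m i * v i = 0 := by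
    simp only [hmdef, sub_mul, mul_assoc, Finset.sum_sub_distrib, ← Finset.mul_sum]
    rw [hc, div_mul_cancel₀ _ hv, sub_self]
  have hmm : ∑ i, m i * m i = 0 := by
    have h1 : ∑ i, m i * m i = (∑ i, m i * v' i) - c * ∑ i, m i * v i := by
      rw [Finset.mul_sum, ← Finset.sum_sub_distrib]
      exact Finset.sum_congr rfl fun i _ => by rw [hmdef]; ring
    rw [h1, hm, hiff m hm, mul_zero, sub_self]
  have hz : ∀ i, v' i = c * v i := fun i => sub_eq_zero.mp (mul_self_eq_zero.mp
    ((Finset.sum_eq_zero_iff_of_nonneg fun i _ => mul_self_nonneg (m i)).mp hmm i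
      (Finset.mem_univ i)))
  have hcc : c * c = 1 := by
    refine mul_right_cancel₀ hv ?_
    rw [one_mul, Finset.mul_sum]
    conv_rhs => rw [← hsq]
    exact Finset.sum_congr rfl fun i _ => by rw [hz i]; ring
  rcases mul_self_eq_one_iff.mp hcc with hc1 | hc1
  · left; funext i; rw [hz i, hc1, one_mul]
  · right; funext i; rw [hz i, hc1, neg_one_mul, Pi.neg_apply]

/-- Only the zero vector spans a line fixed by all lattice symmetries. -/
theorem isotropic_zero {d : ℕ} (hd : 2 ≤ d) {v : Fin d → ℝ}
    (h : ∀ g, pull g v = v ∨ pull g v = -v) : v = 0 := by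
  funext i
  by_contra hi
  rw [Pi.zero_apply] at hi
  obtain ⟨j, hj⟩ : ∃ j : Fin d, j ≠ i :=
    Fintype.exists_ne_of_one_lt_card (by rw [Fintype.card_fin]; omega) i
  have hvj : v j = 0 := by
    rcases h (Equiv.refl _, fun k => decide (k = i)) with h1 | h1
    · have := congrFun h1 i
      simp [pull] at this
      exact absurd (by linarith) hi
    · have := congrFun h1 j
      simp [pull, hj] at this
      linarith
  rcases h (Equiv.swap i j, fun _ => false) with h1 | h1 <;>
    · have := congrFun h1 i
      simp [pull, hvj] at this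
      exact hi (by linarith)

end Vale.Agent.P147.Dir
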