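import Vale.Agent.P147.Dir.Defs

/-!
P147: repeated trials at fresh records; the number of failures is geometric.
-/

open MeasureTheory
open scoped ENNReal

noncomputable section

namespace Vale.Agent.P147.Dir

variable {d : ℕ}

namespace TrialPf

variable (u : Pos d → ℝ) (Exit : ℕ → Set (ℕ → Step d))

/-- Time `z` is a strict record of `u`. -/
def IsRec (η : ℕ → Step d) (z : ℕ) : Prop := ∀ s < z, u (pos η s) < u (pos η z)

/-- At least `k` failures, the `k`-th of which is complete exactly at time `b`. -/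
def Fail : ℕ → ℕ → Set (ℕ → Step d)
  | 0, b => {_η | b = 0}
  | k + 1, b => {η | ∃ z ≤ b, IsRec u η z ∧
      (∃ a ≤ z, η ∈ Fail k a ∧ ∀ s, a ≤ s → s < z → ¬ IsRec u η s) ∧
      shift z η ∈ Exit (b - z)}

/-- The trial after `k` failures starts at time `z`. -/
def Start (k z : ℕ) : Set (ℕ → Step d) :=
  {η | IsRec u η z ∧ ∃ a ≤ z, η ∈ Fail u Exit k a ∧ ∀ s, a ≤ s → s < z → ¬ IsRec u η s}

lemma mem_fail_succ {k b : ℕ} {η : ℕ → Step d} :
    η ∈ Fail u Exit (k + 1) b ↔ ∃ z ≤ b, η ∈ Start u Exit k z ∧ shift z η ∈ Exit (b - z) := by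
  constructor
  · rintro ⟨z, hz, h1, h2, h3⟩; exact ⟨z, hz, ⟨h1, h2⟩, h3⟩
  · rintro ⟨z, hz, ⟨h1, h2⟩, h3⟩; exact ⟨z, hz, h1, h2, h3⟩

/-- At least `k` failures. -/
def Some' (k : ℕ) : Set (ℕ → Step d) := ⋃ b, Fail u Exit k b

variable {u Exit}

lemma isRec_congr {η η' : ℕ → Step d} {z : ℕ} (h : ∀ t < z, η t = η' t) (hr : IsRec u η z) :
    IsRec u η' z := fun s hs => by
  rw [← pos_congr fun t ht => h t (by omega), ← pos_congr fun t ht => h t (by omega)]
  exact hr s hs

lemma detBy_fail (hd : ∀ L, DetBy L (Exit L)) : ∀ k b, DetBy b (Fail u Exit k b)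
  | 0, _ => fun _ _ _ h => h
  | k + 1, b => by
    rintro η η' he ⟨z, hz, h1, ⟨a, ha, h2, h3⟩, h4⟩
    exact ⟨z, hz, isRec_congr (fun t ht => he t (by omega)) h1,
      ⟨a, ha, detBy_fail hd k a η η' (fun t ht => he t (by omega)) h2,
        fun s hs hs' hr => h3 s hs hs' (isRec_congr (fun t ht => (he t (by omega)).symm) hr)⟩,
      hd _ _ _ (fun t ht => he (z + t) (by omega)) h4⟩

lemma detBy_start (hd : ∀ L, DetBy L (Exit L)) (k z : ℕ) : DetBy z (Start u Exit k z) := by
  rintro η η' he ⟨h1, a, ha, h2, h3⟩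
  exact ⟨isRec_congr he h1, a, ha, detBy_fail hd k a η η' (fun t ht => he t (by omega)) h2,
    fun s hs hs' hr => h3 s hs hs' (isRec_congr (fun t ht => (he t (by omega)).symm) hr)⟩

lemma start_unique_of {k : ℕ} {η : ℕ → Step d}
    (hu : ∀ a a', η ∈ Fail u Exit k a → η ∈ Fail u Exit k a' → a = a') {z z' : ℕ}
    (h : η ∈ Start u Exit k z) (h' : η ∈ Start u Exit k z') : z = z' := by
  obtain ⟨h1, a, ha, h2, h3⟩ := h
  obtain ⟨h1', a', ha', h2', h3'⟩ := h'
  obtain rfl := hu a a' h2 h2'
  rcases lt_trichotomy z z' with h | h | h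
  · exact absurd h1 (h3' z ha h)
  · exact h
  · exact absurd h1' (h3 z' ha' h)

lemma fail_unique (hj : Pairwise (Function.onFun Disjoint Exit)) {η : ℕ → Step d} :
    ∀ k a a', η ∈ Fail u Exit k a → η ∈ Fail u Exit k a' → a = a'
  | 0, _, _, h, h' => h.trans h'.symm
  | k + 1, b, b', h, h' => by
    obtain ⟨z, hz, h1, h2⟩ := (mem_fail_succ u Exit).1 h
    obtain ⟨z', hz', h1', h2'⟩ := (mem_fail_succ u Exit).1 h'
    obtain rfl := start_unique_of (fail_unique hj k) h1 h1'
    by_contra hne
    exact Set.disjoint_left.1 (hj (show b - z ≠ b' - z by omega)) h2 h2'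

lemma some_antitone {k : ℕ} : Some' u Exit (k + 1) ⊆ Some' u Exit k := by
  intro η hη
  obtain ⟨b, hb⟩ := Set.mem_iUnion.1 hη
  obtain ⟨z, -, -, ⟨a, -, ha, -⟩, -⟩ := hb
  exact Set.mem_iUnion.2 ⟨a, ha⟩

variable [NeZero d] {μ : Measure (Step d → ℝ)}

/-- A trial from a record only sees fresh sites. -/
lemma split_trial (hμ : Elliptic μ) (hadd : ∀ x y, u (x + y) = u x + u y) {z L : ℕ}
    {S E : Set (ℕ → Step d)} (hS : DetBy z S) (hE : DetBy L E)
    (hrec : ∀ η ∈ S, IsRec u η z) (hfresh : ∀ η ∈ E, ∀ s < L, 0 ≤ u (pos η s)) :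
    nu μ (S ∩ shift z ⁻¹' E) = nu μ S * nu μ E := by
  have key : (nu μ).restrict (shift z ⁻¹' E) S = (nu μ E • nu μ) S := by
    refine measure_eq_of_detBy hS fun ζ hζ => ?_
    rw [Measure.restrict_apply (measurableSet_cyl _ _), Measure.smul_apply, smul_eq_mul, mul_comm]
    have h2 : ((nu μ).restrict (cyl z ζ)).map (shift z) E = (w μ z ζ • nu μ) E := by
      refine measure_eq_of_detBy hE fun ρ hρ => ?_
      rw [Measure.map_apply (measurable_shift z) (measurableSet_cyl _ _),
        Measure.restrict_apply (measurable_shift z (measurableSet_cyl _ _)), Set.inter_comm,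
        cyl_inter_shift, Measure.smul_apply, smul_eq_mul]
      refine w_glue hμ fun s hs t ht heq => ?_
      have h1 := hrec ζ hζ s hs
      rw [heq, hadd] at h1
      linarith [hfresh ρ hρ t ht]
    rwa [Measure.map_apply (measurable_shift z) hE.measurableSet,
      Measure.restrict_apply (measurable_shift z hE.measurableSet), Set.inter_comm,
      Measure.smul_apply, smul_eq_mul] at h2
  rwa [Measure.restrict_apply hS.measurableSet, Measure.smul_apply, smul_eq_mul, mul_comm] at key

variable {q : ℝ≥0∞}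

lemma measurableSet_some (h : Trial μ u Exit q) (k : ℕ) : MeasurableSet (Some' u Exit k) :=
  MeasurableSet.iUnion fun b => (detBy_fail h.det k b).measurableSet

lemma some_le (hμ : Elliptic μ) (h : Trial μ u Exit q) :
    ∀ k, nu μ (Some' u Exit k) ≤ q ^ k
  | 0 => by
    have := isProbabilityMeasure_nu hμ
    simpa using prob_le_one
  | k + 1 => by
    have hsub : Some' u Exit (k + 1) ⊆
        ⋃ z, ⋃ L, Start u Exit k z ∩ shift z ⁻¹' Exit L := by
      intro η hη
      obtain ⟨b, hb⟩ := Set.mem_iUnion.1 hη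
      obtain ⟨z, -, h1, h2⟩ := (mem_fail_succ u Exit).1 hb
      exact Set.mem_iUnion.2 ⟨z, Set.mem_iUnion.2 ⟨b - z, h1, h2⟩⟩
    calc nu μ (Some' u Exit (k + 1))
        ≤ ∑' z, ∑' L, nu μ (Start u Exit k z ∩ shift z ⁻¹' Exit L) :=
          (measure_mono hsub).trans ((measure_iUnion_le _).trans
            (ENNReal.tsum_le_tsum fun z => measure_iUnion_le _))
      _ = ∑' z, ∑' L, nu μ (Start u Exit k z) * nu μ (Exit L) :=
          tsum_congr fun z => tsum_congr fun L =>
            split_trial hμ h.add (detBy_start h.det k z) (h.det L) (fun η hη => hη.1) (h.fresh L)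
      _ ≤ ∑' z, nu μ (Start u Exit k z) * q := ENNReal.tsum_le_tsum fun z => by
          rw [ENNReal.tsum_mul_left]; exact mul_le_mul' le_rfl h.total
      _ = nu μ (⋃ z, Start u Exit k z) * q := by
          rw [ENNReal.tsum_mul_right, measure_iUnion (fun a b hab => Set.disjoint_left.2
            fun η ha hb => hab (start_unique_of (fail_unique h.disj k) ha hb))
            fun z => (detBy_start h.det k z).measurableSet]
      _ ≤ nu μ (Some' u Exit k) * q := by
          refine mul_le_mul' (measure_mono fun η hη => ?_) le_rfl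
          obtain ⟨z, -, a, -, ha, -⟩ := Set.mem_iUnion.1 hη
          exact Set.mem_iUnion.2 ⟨a, ha⟩
      _ ≤ q ^ k * q := mul_le_mul' (some_le hμ h k) le_rfl
      _ = q ^ (k + 1) := (pow_succ q k).symm

/-- The number of failures. -/
def count (u : Pos d → ℝ) (Exit : ℕ → Set (ℕ → Step d)) (η : ℕ → Step d) : ℝ≥0∞ :=
  ∑' k, (Some' u Exit (k + 1)).indicator (fun _ => 1) η

lemma measurable_count (h : Trial μ u Exit q) : Measurable (count u Exit) :=
  Measurable.ennreal_tsum fun k => measurable_const.indicator (measurableSet_some h _)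

lemma count_sq (hμ : Elliptic μ) (h : Trial μ u Exit q) {r : ℝ≥0∞} (hr : r ≤ 1)
    (hq : q ≤ r * r) : ∫⁻ η, count u Exit η ^ 2 ∂nu μ ≤ (1 - r)⁻¹ * (1 - r)⁻¹ := by
  have hm : ∀ k, Measurable ((Some' u Exit (k + 1)).indicator fun _ => (1 : ℝ≥0∞)) := fun k =>
    measurable_const.indicator (measurableSet_some h _)
  have hb : ∀ j k, nu μ (Some' u Exit (j + 1) ∩ Some' u Exit (k + 1)) ≤ r ^ j * r ^ k := by
    intro j k
    have h1 : ∀ i, nu μ (Some' u Exit (i + 1)) ≤ r ^ (i + i) := fun i =>
      (some_le hμ h _).trans (le_trans (pow_le_pow_left₀ zero_le hq _) (by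
        rw [← pow_two, ← pow_mul]
        exact pow_le_pow_of_le_one zero_le hr (by omega)))
    rw [← pow_add]
    rcases le_total j k with hjk | hjk
    · exact ((measure_mono Set.inter_subset_right).trans (h1 k)).trans
        (pow_le_pow_of_le_one zero_le hr (by omega))
    · exact ((measure_mono Set.inter_subset_left).trans (h1 j)).trans
        (pow_le_pow_of_le_one zero_le hr (by omega))
  calc ∫⁻ η, count u Exit η ^ 2 ∂nu μ
      = ∫⁻ η, ∑' j, ∑' k, (Some' u Exit (j + 1) ∩ Some' u Exit (k + 1)).indicator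
          (fun _ => (1 : ℝ≥0∞)) η ∂nu μ := by
        refine lintegral_congr fun η => ?_
        rw [sq, count, ← ENNReal.tsum_mul_right]
        refine tsum_congr fun j => ?_
        rw [← ENNReal.tsum_mul_left]
        refine tsum_congr fun k => ?_
        rw [← Set.inter_indicator_mul]
        simp
    _ = ∑' j, ∑' k, nu μ (Some' u Exit (j + 1) ∩ Some' u Exit (k + 1)) := by
        rw [lintegral_tsum fun j => (Measurable.ennreal_tsum fun k => measurable_const.indicator
          ((measurableSet_some h _).inter (measurableSet_some h _))).aemeasurable]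
        refine tsum_congr fun j => ?_
        rw [lintegral_tsum fun k => (measurable_const.indicator
          ((measurableSet_some h _).inter (measurableSet_some h _))).aemeasurable]
        refine tsum_congr fun k => ?_
        rw [lintegral_indicator_const ((measurableSet_some h _).inter (measurableSet_some h _)),
          one_mul]
    _ ≤ ∑' j, ∑' k, r ^ j * r ^ k := ENNReal.tsum_le_tsum fun j => ENNReal.tsum_le_tsum (hb j)
    _ = _ := by simp_rw [ENNReal.tsum_mul_left, ENNReal.tsum_mul_right, ENNReal.tsum_geometric]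

omit [NeZero d] in
/-- The bound after a given number of failures. -/
lemma bound (hadd : ∀ x y, u (x + y) = u x + u y)
    (hj : Pairwise (Function.onFun Disjoint Exit)) {η : ℕ → Step d} {T : ℕ} {g : ℕ → ℝ}
    (hg : ∀ r s, r ≤ s → s ≤ T → g r ≤ g s) (hstep : ∀ e : Step d, |u (vec e)| ≤ g 0)
    (htrial : ∀ z s, z ≤ s → s ≤ T → (∀ L < s - z, shift z η ∉ Exit L) →
      u (pos η s) - u (pos η z) ≤ g s) :
    ∀ k a, η ∈ Fail u Exit k a →
      (∀ s ≤ T, (∀ z, a ≤ z → z ≤ s → ¬ IsRec u η z) → u (pos η s) ≤ 2 * k * g s) ∧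
      ∀ z, η ∈ Start u Exit k z → ∀ s, z ≤ s → s ≤ T → (∀ L < s - z, shift z η ∉ Exit L) →
        u (pos η s) ≤ 2 * (k + 1) * g s := by
  intro k
  induction k with
  | zero =>
    intro a ha
    obtain rfl : a = 0 := ha
    refine ⟨fun s _ hno => absurd (fun r hr => absurd hr (by omega)) (hno 0 le_rfl (Nat.zero_le s)),
      fun z hz s hzs hs hL => ?_⟩
    obtain ⟨-, a, -, hfa, hno⟩ := hz
    obtain rfl : a = 0 := hfa
    obtain rfl : z = 0 := by
      by_contra h
      exact hno 0 le_rfl (Nat.pos_of_ne_zero h) fun r hr => absurd hr (by omega)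
    have h0 : u (pos η 0) = 0 := by
      have := hadd 0 0
      simp only [add_zero] at this
      simp only [pos]
      linarith
    have := htrial 0 s hzs hs hL
    have := (abs_nonneg _).trans ((hstep (η 0)).trans (hg 0 s (Nat.zero_le s) hs))
    push_cast
    linarith
  | succ k ih =>
    intro b hb
    have hpre : ∀ r ≤ T, r ≤ b → u (pos η r) ≤ 2 * (k + 1) * g r := by
      obtain ⟨z, -, hst, hex⟩ := (mem_fail_succ u Exit).1 hb
      obtain ⟨hrz, a, haz, hfa, hno⟩ := hst
      intro r hrT hrb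
      rcases lt_or_ge r z with hrz' | hrz'
      · have h1 := (ih a hfa).1 r hrT fun z' h1 h2 => hno z' h1 (by omega)
        have : 0 ≤ g r := (abs_nonneg _).trans ((hstep (η 0)).trans (hg 0 r (Nat.zero_le r) hrT))
        linarith
      · refine (ih a hfa).2 z ⟨hrz, a, haz, hfa, hno⟩ r hrz' hrT fun L hL hL' => ?_
        exact Set.disjoint_left.1 (hj (show L ≠ b - z by omega)) hL' hex
    have hbefore : ∀ s ≤ T, (∀ z, b ≤ z → z ≤ s → ¬ IsRec u η z) →
        u (pos η s) ≤ 2 * (k + 1) * g s := by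
      intro s
      induction s using Nat.strong_induction_on with
      | _ s ihs =>
        intro hs hno
        by_cases hsb : s ≤ b
        · exact hpre s hs hsb
        · have h := hno s (by omega) le_rfl
          simp only [IsRec, not_forall, not_lt, exists_prop] at h
          obtain ⟨r, hr, hru⟩ := h
          refine hru.trans ((ihs r hr (by omega) fun z h1 h2 => hno z h1 (by omega)).trans ?_)
          exact mul_le_mul_of_nonneg_left (hg r s hr.le hs) (by positivity)
    refine ⟨fun s hs hno => by push_cast; exact hbefore s hs hno, fun z hz s hzs hs hL => ?_⟩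
    obtain ⟨hrz, a, haz, hfa, hno⟩ := hz
    obtain rfl := fail_unique hj _ a b hfa hb
    have hg0 : 0 ≤ g s := (abs_nonneg _).trans ((hstep (η 0)).trans (hg 0 s (Nat.zero_le s) hs))
    have hz1 : u (pos η z) ≤ 2 * (k + 1) * g s + g s := by
      rcases Nat.eq_zero_or_pos z with rfl | hz0
      · have := hpre 0 (Nat.zero_le T) (by omega)
        have := mul_le_mul_of_nonneg_left (hg 0 s (Nat.zero_le s) hs)
          (show (0 : ℝ) ≤ 2 * (k + 1) by positivity)
        linarith
      · obtain ⟨y, rfl⟩ : ∃ y, z = y + 1 := ⟨z - 1, by omega⟩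
        have h1 : u (pos η y) ≤ 2 * (k + 1) * g s :=
          (hbefore y (by omega) fun z' h1 h2 => hno z' h1 (by omega)).trans
            (mul_le_mul_of_nonneg_left (hg y s (by omega) hs) (by positivity))
        have h2 := (le_abs_self _).trans (hstep (η y))
        have h3 := hg 0 s (Nat.zero_le s) hs
        rw [pos, hadd]
        linarith
    have := htrial z s hzs hs hL
    push_cast
    linarith

end TrialPf

open TrialPf in
/-- Module Trials. -/
theorem trial [NeZero d] : TrialStmt d := by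
  intro q hq
  set r : ℝ≥0∞ := q ^ (1 / 2 : ℝ) with hr
  have hr1 : r < 1 := ENNReal.rpow_lt_one hq (by norm_num)
  have hrr : q = r * r := by
    rw [hr, ← ENNReal.rpow_add_of_nonneg _ _ (by norm_num) (by norm_num)]
    norm_num
  refine ⟨(1 - r)⁻¹ * (1 - r)⁻¹, ENNReal.mul_ne_top ?_ ?_, fun μ u Exit hμ h =>
    ⟨count u Exit, measurable_count h, count_sq hμ h hr1.le hrr.le, ?_⟩⟩
  · exact ENNReal.inv_ne_top.2 (tsub_pos_of_lt hr1).ne'
  · exact ENNReal.inv_ne_top.2 (tsub_pos_of_lt hr1).ne'
  intro η hfin T g hg hstep htrial s hs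
  classical
  have hg0 : 0 ≤ g s := (abs_nonneg _).trans ((hstep (η 0)).trans (hg 0 s (Nat.zero_le s) hs))
  have hnot : ∃ k, η ∉ Some' u Exit (k + 1) := by
    by_contra hall
    push Not at hall
    refine hfin ?_
    rw [count, tsum_congr fun k => Set.indicator_of_mem (hall k) _]
    exact ENNReal.tsum_const_eq_top_of_ne_zero one_ne_zero
  set K := Nat.find hnot
  have hK : η ∈ Some' u Exit K := by
    rcases Nat.eq_zero_or_pos K with h0 | h0
    · rw [h0]; exact Set.mem_iUnion.2 ⟨0, rfl⟩
    · have := Nat.find_min hnot (show K - 1 < K by omega)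
      rw [show K - 1 + 1 = K by omega] at this
      exact not_not.1 this
  have hKG : (K : ℝ) ≤ (count u Exit η).toReal := by
    have hle : (K : ℝ≥0∞) ≤ count u Exit η := by
      refine le_trans (le_of_eq ?_) (ENNReal.sum_le_tsum (Finset.range K))
      rw [Finset.sum_congr rfl fun k hk => Set.indicator_of_mem
        (not_not.1 (Nat.find_min hnot (Finset.mem_range.1 hk))) _]
      simp [K]
    simpa using ENNReal.toReal_mono hfin hle
  obtain ⟨a, ha⟩ := Set.mem_iUnion.1 hK
  have hb := bound h.add h.disj hg hstep htrial K a ha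
  have hfinal : u (pos η s) ≤ 2 * (K + 1) * g s := by
    by_cases hex : ∃ z, a ≤ z ∧ z ≤ s ∧ IsRec u η z
    · obtain ⟨hz1, hz2, hz3⟩ := Nat.find_spec hex
      set z := Nat.find hex
      have hst : η ∈ Start u Exit K z := ⟨hz3, a, hz1, ha, fun s' h1 h2 h3 =>
        Nat.find_min hex h2 ⟨h1, by omega, h3⟩⟩
      refine hb.2 z hst s hz2 hs fun L _ hL => Nat.find_spec hnot ?_
      exact Set.mem_iUnion.2 ⟨z + L, (mem_fail_succ u Exit).2
        ⟨z, Nat.le_add_right z L, hst, by rwa [Nat.add_sub_cancel_left]⟩⟩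
    · push Not at hex
      have := hb.1 s hs hex
      linarith
  have := mul_le_mul_of_nonneg_right hKG hg0
  linarith

end Vale.Agent.P147.Dir
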