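import Vale.Agent.P147.Dir.Direction
import Vale.Agent.P147.Dir.Regen
import Vale.Agent.P147.Switch

/-!
P147: the limit velocity in a half-space is deterministic; in dimension at least four there is at
most one nonzero limit velocity.
-/

open MeasureTheory ProbabilityTheory Filter
open scoped ENNReal Topology

noncomputable section

namespace Vale.Agent.P147.Dir

variable {d : ℕ} {l : Fin d → ℝ}

/-- The paths with limit velocity `v`. -/
def Vel (v : Fin d → ℝ) : Set (ℕ → Step d) :=
  {η | ∀ i, Tendsto (fun n : ℕ => (pos η n i : ℝ) / n) atTop (𝓝 (v i))}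

lemma measurableSet_vel (v : Fin d → ℝ) : MeasurableSet (Vel v) := by
  rw [show Vel v = ⋂ i, {η | Tendsto (fun n : ℕ => (pos η n i : ℝ) / n) atTop (𝓝 (v i))} from
    by ext η; simp [Vel]]
  exact MeasurableSet.iInter fun i => measurableSet_tendsto _ fun n =>
    ((measurable_of_countable fun x : Pos d => (x i : ℝ)).comp (measurable_pos n)).div_const _

lemma vel_lh {v : Fin d → ℝ} {η : ℕ → Step d} (h : η ∈ Vel v) :
    Tendsto (fun n : ℕ => lh l η n / n) atTop (𝓝 (∑ i, l i * v i)) := by
  refine (tendsto_finsetSum Finset.univ fun i _ => (h i).const_mul (l i)).congr fun n => ?_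
  simp only [lh, lht, Finset.sum_div, mul_div_assoc]

lemma vel_escape {v : Fin d → ℝ} {η : ℕ → Step d} (h : η ∈ Vel v) (hl : 0 < ∑ i, l i * v i) :
    η ∈ Escape l := by
  refine ((vel_lh h).pos_mul_atTop hl tendsto_natCast_atTop_atTop).congr' ?_
  filter_upwards [eventually_gt_atTop 0] with n hn
  exact div_mul_cancel₀ _ (by exact_mod_cast hn.ne')

lemma vel_shift {v : Fin d → ℝ} {η : ℕ → Step d} (h : η ∈ Vel v) (n : ℕ) :
    shift n η ∈ Vel v := by
  intro i
  have hr : Tendsto (fun t : ℕ => ((n : ℝ) + t) / t) atTop (𝓝 1) := by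
    have := ((tendsto_const_nhds (x := (n : ℝ))).div_atTop
      (tendsto_natCast_atTop_atTop (R := ℝ))).add_const 1
    rw [zero_add] at this
    refine this.congr' ?_
    filter_upwards [eventually_gt_atTop 0] with t ht
    field_simp
  have h1 := (((h i).comp (tendsto_add_atTop_nat n)).mul hr).sub
    ((tendsto_const_nhds (x := (pos η n i : ℝ))).div_atTop
      (tendsto_natCast_atTop_atTop (R := ℝ)))
  rw [mul_one, sub_zero] at h1
  refine h1.congr' ?_
  filter_upwards [eventually_gt_atTop 0] with t ht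
  have ht' : (0 : ℝ) < t := by exact_mod_cast ht
  simp only [Function.comp_apply, add_comm t n, pos_add, Pi.add_apply, Int.cast_add, Nat.cast_add]
  field_simp
  ring

variable [NeZero d] {μ : Measure (Step d → ℝ)}

lemma Regen.speed (hR : Regen μ l) :
    ∃ s : ℝ, ∀ᵐ η ∂fwdLaw μ l, ∀ c : ℝ, 0 < c →
      Tendsto (fun n : ℕ => lh l η n / n) atTop (𝓝 c) → c = s := by
  have := hR.prob
  set P := fwdLaw μ l
  set T : (ℕ → Step d) → ℝ := fun η => (tau l η : ℝ) with hT
  set TM : ℕ → (ℕ → Step d) → ℝ := fun M η => ((min (tau l η) M : ℕ) : ℝ) with hTM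
  have hTm : Measurable T := (measurable_of_countable fun n : ℕ => (n : ℝ)).comp hR.measurable_tau
  have hTMm : ∀ M, Measurable (TM M) := fun M =>
    (measurable_of_countable fun n : ℕ => ((min n M : ℕ) : ℝ)).comp hR.measurable_tau
  have hTb : BlockFun l T := fun η η' _ _ _ _ h _ => by simp only [hT, h]
  have hTMb : ∀ M, BlockFun l (TM M) := fun M η η' _ _ _ _ h _ => by simp only [hTM, h]
  have hTMi : ∀ M, Integrable (TM M) P := fun M =>
    Integrable.of_bound (hTMm M).aestronglyMeasurable M (Eventually.of_forall fun η => by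
      simp only [hTM, Real.norm_eq_abs, Nat.abs_cast]
      exact_mod_cast min_le_right _ _)
  set H : ℝ := ∫ η, blkH l η ∂P
  have hH := hR.slln (measurable_blkH hR.measurable_tau) blockFun_blkH hR.integrable_blkH
  have base : ∀ᵐ η ∂P, ∀ c : ℝ, 0 < c → Tendsto (fun n : ℕ => lh l η n / n) atTop (𝓝 c) →
      Tendsto (fun k : ℕ => (∑ r ∈ Finset.range k, T ((next l)^[r] η)) / k) atTop (𝓝 (H / c)) := by
    filter_upwards [hR.blocks, hH] with η hb hh c hc hlim
    have hbk : ∀ k, ∃ t, RegT l ((next l)^[k] η) t := fun k => (hb k).2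
    have hmono := ctime_strictMono hbk
    have h1 : Tendsto (fun k => lh l η (ctime l k η) / (ctime l k η : ℝ)) atTop (𝓝 c) :=
      hlim.comp hmono.tendsto_atTop
    refine (hh.div h1 hc.ne').congr' ?_
    filter_upwards [eventually_gt_atTop 0] with k hk
    have hk' : (0 : ℝ) < k := by exact_mod_cast hk
    have hl0 : 0 < lh l η (ctime l k η) := lt_of_lt_of_le hk' (le_lh_ctime hbk k)
    have hc0 : (0 : ℝ) < ctime l k η := by
      have := hmono hk
      simp only [ctime, Finset.range_zero, Finset.sum_empty] at this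
      exact_mod_cast this
    simp only [Pi.div_apply, ← lh_ctime_eq, hT]
    rw [show (∑ r ∈ Finset.range k, ((tau l ((next l)^[r] η) : ℕ) : ℝ)) = (ctime l k η : ℝ) from by
      simp [ctime]]
    field_simp
  by_cases hI : Integrable T P
  · refine ⟨H / ∫ η, T η ∂P, ?_⟩
    have hT1 : (1 : ℝ) ≤ ∫ η, T η ∂P := by
      calc (1 : ℝ) = ∫ _, (1 : ℝ) ∂P := by simp
        _ ≤ _ := integral_mono_ae (integrable_const _) hI (by
          filter_upwards [hR.blocks] with η hη
          exact Nat.one_le_cast.mpr (tau_pos (by simpa using (hη 0).2)))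
    filter_upwards [base, hR.slln hTm hTb hI] with η hb hs c hc hlim
    have he : (∫ η, T η ∂P) = H / c := tendsto_nhds_unique hs (hb c hc hlim)
    have hH0 : H ≠ 0 := fun h0 => by rw [h0, zero_div] at he; linarith
    rw [he]
    field_simp
  · refine ⟨0, ?_⟩
    filter_upwards [base, ae_all_iff.mpr fun M => hR.slln (hTMm M) (hTMb M) (hTMi M)]
      with η hb hs c hc hlim
    exfalso
    have hle : ∀ M, (∫ η, TM M η ∂P) ≤ H / c := fun M =>
      le_of_tendsto_of_tendsto' (hs M) (hb c hc hlim) fun k =>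
        div_le_div_of_nonneg_right (Finset.sum_le_sum fun r _ => by
          simp only [hT, hTM]; exact_mod_cast min_le_left _ _) (Nat.cast_nonneg _)
    refine hI ⟨hTm.aestronglyMeasurable, ?_⟩
    rw [hasFiniteIntegral_iff_ofReal (Eventually.of_forall fun η => Nat.cast_nonneg _)]
    have hsup : ∀ η, ENNReal.ofReal (T η) = ⨆ M : ℕ, ENNReal.ofReal (TM M η) := fun η =>
      le_antisymm (le_iSup_of_le (tau l η) (by simp [hT, hTM]))
        (iSup_le fun M => ENNReal.ofReal_le_ofReal (by
          simp only [hT, hTM]; exact_mod_cast min_le_left _ _))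
    rw [lintegral_congr hsup, lintegral_iSup (fun M => (hTMm M).ennreal_ofReal) (fun a b hab η =>
      ENNReal.ofReal_le_ofReal (by simp only [hTM]; exact_mod_cast min_le_min_left _ hab))]
    refine lt_of_le_of_lt (iSup_le fun M => ?_) (ENNReal.ofReal_lt_top (r := H / c))
    rw [← ofReal_integral_eq_lintegral_ofReal (hTMi M)
      (Eventually.of_forall fun η => Nat.cast_nonneg _)]
    exact ENNReal.ofReal_le_ofReal (hle M)

/-- Two limit velocities in a common open half-space coincide. -/
theorem velocity_eq (hμ : Elliptic μ) (hdir : ∀ l, DirectionStmt μ l) (l : Fin d → ℝ)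
    {v v' : Fin d → ℝ} (hv : 0 < ∑ i, l i * v i) (hv' : 0 < ∑ i, l i * v' i)
    (hp : 0 < nu μ (Vel v)) (hp' : 0 < nu μ (Vel v')) : v = v' := by
  have := isProbabilityMeasure_nu hμ
  have hl : l ≠ 0 := fun h => by simp [h] at hv
  obtain ⟨a, ha, e₀, hn⟩ := exists_norm hl
  set m := a • l with hm
  have hsum : ∀ u : Fin d → ℝ, ∑ i, m i * u i = a * ∑ i, l i * u i := fun u => by
    simp [hm, Finset.mul_sum, mul_assoc]
  have hc : 0 < ∑ i, m i * v i := by rw [hsum]; positivity
  have hc' : 0 < ∑ i, m i * v' i := by rw [hsum]; positivity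
  have hm0 : m ≠ 0 := fun h => by simp [h] at hc
  have hesc : 0 < nu μ (Escape m) := lt_of_lt_of_le hp (measure_mono fun η h => vel_escape h hc)
  obtain ⟨u, -, hu⟩ := hdir m hμ hm0 hesc
  have hR := regen μ m e₀ hμ hn hesc
  obtain ⟨s, hs⟩ := hR.speed
  have key : ∀ w : Fin d → ℝ, 0 < ∑ i, m i * w i → 0 < nu μ (Vel w) →
      ∑ i, m i * w i = s ∧ ∀ i, w i = (∑ i, m i * w i) * u i := by
    intro w hw hpw
    constructor
    · have hF : nu μ (Fwd m ∩ Vel w) ≠ 0 := by
        intro h0
        refine hpw.ne' (measure_mono_null (fun η hη => ?_) (measure_iUnion_null fun n =>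
          null_shift hμ (measurableSet_fwd.inter (measurableSet_vel w)) h0 n))
        obtain ⟨n, hn'⟩ := exists_fwd (vel_escape hη hw)
        exact Set.mem_iUnion.mpr ⟨n, hn', vel_shift hη n⟩
      by_contra hne
      refine hF ?_
      have hnull : fwdLaw μ m (Vel w) = 0 := by
        refine measure_mono_null (fun η hη => ?_) (ae_iff.mp hs)
        simp only [Set.mem_ofPred_eq, Classical.not_forall]
        exact ⟨_, hw, vel_lh hη, hne⟩
      simp only [fwdLaw, Measure.smul_apply, smul_eq_mul, mul_eq_zero, ENNReal.inv_eq_zero,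
        measure_ne_top, false_or, Measure.restrict_apply (measurableSet_vel w)] at hnull
      rwa [Set.inter_comm]
    · intro i
      obtain ⟨η, hη, hd'⟩ : ∃ η ∈ Vel w, ∀ i,
          Tendsto (fun n => (pos η n i : ℝ) / lh m η n) atTop (𝓝 (u i)) := by
        by_contra hno
        push Not at hno
        refine hpw.ne' (measure_mono_null (fun η hη => ?_) (ae_iff.mp hu))
        simp only [Set.mem_ofPred_eq, Classical.not_imp, Classical.not_forall]
        exact ⟨vel_escape hη hw, hno η hη⟩
      have h1 : Tendsto (fun n => (pos η n i : ℝ) / lh m η n) atTop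
          (𝓝 (w i / ∑ i, m i * w i)) := by
        refine ((hη i).div (vel_lh hη) hw.ne').congr' ?_
        filter_upwards [eventually_gt_atTop 0] with n hn'
        exact div_div_div_cancel_right₀ (by exact_mod_cast hn'.ne') _ _
      have := tendsto_nhds_unique h1 (hd' i)
      rw [← this]
      field_simp
  obtain ⟨hs1, hu1⟩ := key v hc hp
  obtain ⟨hs2, hu2⟩ := key v' hc' hp'
  funext i
  rw [hu1 i, hu2 i, hs1, hs2]

/-- In dimension at least four there is at most one nonzero limit velocity. -/
theorem velocity_unique (hμ : Elliptic μ) (hdir : ∀ l, DirectionStmt μ l) (hd : 4 ≤ d)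
    {v v' : Fin d → ℝ} (hv : v ≠ 0) (hv' : v' ≠ 0) (hp : 0 < nu μ (Vel v))
    (hp' : 0 < nu μ (Vel v')) : v = v' := by
  by_cases hsign : ∃ i, v i * v' i < 0
  · obtain ⟨i, hi⟩ := hsign
    exfalso
    wlog hpos : 0 < v i generalizing v v'
    · have h2 : 0 < v' i := by
        rcases mul_neg_iff.mp hi with ⟨h, -⟩ | ⟨-, h⟩
        · exact absurd h hpos
        · exact h
      exact this hv' hv hp' hp (by rwa [mul_comm]) h2
    have hneg : v' i < 0 := neg_of_mul_neg_right hi hpos.le
    have hα : (2 : ℝ) < 1 * ((d : ℝ) - 1) := by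
      have : (4 : ℝ) ≤ d := by exact_mod_cast hd
      linarith
    have hesc : 0 < nu μ (Esc (opp (i, true)) 1) := by
      refine lt_of_lt_of_le hp' (measure_mono fun η hη => ⟨-v' i / 2, by linarith, ?_⟩)
      filter_upwards [(hη i).eventually (gt_mem_nhds (show v' i < v' i / 2 by linarith)),
        eventually_gt_atTop 0] with n hn hn0
      rw [div_lt_iff₀ (by exact_mod_cast hn0)] at hn
      rw [hgt, ht_opp]
      simp only [ht, if_true, Int.cast_neg, Real.rpow_one]
      linarith
    refine hp.ne' (measure_mono_null (fun η hη => ?_)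
      (ae_iff.mp (dichotomy hμ (by omega) hα (i, true) hesc)))
    simp only [Set.mem_ofPred_eq, not_not]
    refine ⟨v i / 2, by positivity, (?_ : ∀ᶠ n : ℕ in atTop, _).frequently⟩
    filter_upwards [(hη i).eventually (lt_mem_nhds (half_lt_self hpos)),
      eventually_gt_atTop 0] with n hn hn0
    rw [lt_div_iff₀ (by exact_mod_cast hn0)] at hn
    simpa [hgt, ht] using hn.le
  · push Not at hsign
    have sq : ∀ w : Fin d → ℝ, w ≠ 0 → 0 < ∑ i, w i * w i := fun w hw => by
      obtain ⟨i, hi⟩ := Function.ne_iff.mp hw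
      exact Finset.sum_pos' (fun j _ => mul_self_nonneg _)
        ⟨i, Finset.mem_univ i, mul_self_pos.mpr hi⟩
    have h0 : 0 ≤ ∑ i, v i * v' i := Finset.sum_nonneg fun i _ => hsign i
    refine velocity_eq hμ hdir (v + v') ?_ ?_ hp hp'
    · simp only [Pi.add_apply, add_mul, Finset.sum_add_distrib]
      rw [show (∑ i, v' i * v i) = ∑ i, v i * v' i from Finset.sum_congr rfl fun i _ => mul_comm ..]
      linarith [sq v hv]
    · simp only [Pi.add_apply, add_mul, Finset.sum_add_distrib]
      linarith [sq v' hv']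

/-- The annealed form. -/
theorem velocity_annealed (hμ : Elliptic μ) (hdir : ∀ l, DirectionStmt μ l) (hd : 4 ≤ d)
    {v v' : Fin d → ℝ} (hv : v ≠ 0) (hv' : v' ≠ 0)
    (hp : 0 < annealed μ
      {q | ∀ i, Tendsto (fun n : ℕ => (walkPos q n i : ℝ) / n) atTop (𝓝 (v i))})
    (hp' : 0 < annealed μ
      {q | ∀ i, Tendsto (fun n : ℕ => (walkPos q n i : ℝ) / n) atTop (𝓝 (v' i))}) : v = v' := by
  have h : ∀ w : Fin d → ℝ, annealed μ
      {q | ∀ i, Tendsto (fun n : ℕ => (walkPos q n i : ℝ) / n) atTop (𝓝 (w i))}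
        = nu μ (Vel w) := fun w => by
    rw [nu, Measure.map_apply measurable_stepsOf (measurableSet_vel w)]
    congr 1
    ext q
    simp [Vel, pos_stepsOf]
  rw [h] at hp hp'
  exact velocity_unique hμ hdir hd hv hv' hp hp'

end Vale.Agent.P147.Dir
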