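import Vale.Agent.P147.Basic

/-!
P147: the events and symmetries named in the asymptotic direction statement.
-/

open MeasureTheory Filter
open scoped Topology

noncomputable section

namespace Vale.Agent.P147.Dir

variable {d : ℕ}

/-- Preservation of the row law by a signed permutation of the coordinates. -/
def Keeps (μ : Measure (Step d → ℝ)) (g : Equiv.Perm (Fin d) × (Fin d → Bool)) : Prop :=
  μ.map (fun p e => p (g.1 e.1, xor e.2 (g.2 e.1))) = μ

/-- The action of a signed permutation of the coordinates on vectors. -/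
def act (g : Equiv.Perm (Fin d) × (Fin d → Bool)) (v : Fin d → ℝ) : Fin d → ℝ :=
  fun i => if g.2 i then -v (g.1 i) else v (g.1 i)

variable [NeZero d]

/-- Inner product of the position of the walk after `n` steps with `l`. -/
def proj (l : Fin d → ℝ) (q : Env d × (ℕ → ℝ)) (n : ℕ) : ℝ := ∑ i, l i * (walkPos q n i : ℝ)

/-- The escape event in the direction `l`. -/
def AE (l : Fin d → ℝ) : Set (Env d × (ℕ → ℝ)) := {q | Tendsto (proj l q) atTop atTop}

/-- Escapes in both directions along `l` have positive probability. -/
def Coexist (μ : Measure (Step d → ℝ)) (l : Fin d → ℝ) : Prop :=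
  0 < annealed μ (AE l) ∧ 0 < annealed μ (AE (-l))

/-- The walk has the limit velocity `v`. -/
def Speed (v : Fin d → ℝ) : Set (Env d × (ℕ → ℝ)) :=
  {q | ∀ i, Tendsto (fun n : ℕ => (walkPos q n i : ℝ) / n) atTop (𝓝 (v i))}

/-- The ratio of the walk to its height converges to `v`. -/
def Ray (l v : Fin d → ℝ) (q : Env d × (ℕ → ℝ)) : Prop :=
  ∀ i, Tendsto (fun n => (walkPos q n i : ℝ) / proj l q n) atTop (𝓝 (v i))

end Vale.Agent.P147.Dir
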