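import Vale.Agent.P147.Dir.Walk

/-!
P147: escape with positive upper speed, as named in the statement.
-/

open MeasureTheory Filter
open scoped Topology

noncomputable section

namespace Vale.Agent.P147.Dir

variable {d : ℕ} [NeZero d]

/-- Escape along `l` with positive upper speed. -/
def FastAE (l : Fin d → ℝ) : Set (Env d × (ℕ → ℝ)) :=
  AE l ∩ {q | ∃ c > (0 : ℝ), ∃ᶠ n : ℕ in atTop, c * (n : ℝ) ≤ proj l q n}

/-- Coexistence of fast escapes in both directions along `l`. -/
def CoexistFast (μ : Measure (Step d → ℝ)) (l : Fin d → ℝ) : Prop :=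
  0 < annealed μ (FastAE l) ∧ 0 < annealed μ (FastAE (-l))

end Vale.Agent.P147.Dir
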